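import Vale.Agent.P237.Gen.Equality.Ball
import Vale.Agent.P237.Gen.Contact

/-!
The strict contact bound from a one-variable inequality with its equality case.
-/

open MeasureTheory Set Metric Filter
open scoped RealInnerProductSpace

namespace Vale.Agent.P237.Gen.Eq

open Contact
open Every (kappa)

noncomputable section

variable {n : ℕ}

/-- The strict contact bound, given that the ball's profile is the only one at which the averaged
moment constraint allows equality. -/
theorem contactEq_of_profile (hn : 2 ≤ n)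
    (hL : ∀ f, Adm f → 0 ≤ excess n f →
      pw (n - 1) f ^ n * pw n semi ^ (n - 1) ≤ pw (n - 1) semi ^ n * pw n f ^ (n - 1) →
      pw n f = pw n semi) :
    ContactEq n (pcN (n + 1) / pcN n) := by
  intro X hX hs
  have hn0 : n ≠ 0 := by omega
  obtain ⟨A, hJ⟩ := exists_johnPosition hX hs
  obtain ⟨b, hb, h⟩ := exists_contact_profile hn0 zero_le_one le_rfl hJ (fun _ => 0)
    fun m c b _ _ _ _ => by simp
  let C : (Fin (n + 1) → ℝ) ≃ₗ[ℝ] Contact.E n :=
    (WithLp.linearEquiv 2 ℝ (Fin (n + 1) → ℝ)).symm.trans b.repr.symm.toLinearEquiv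
  refine ⟨A.symm.trans C.symm, ?_⟩
  have himg : (A.symm.trans C.symm) '' X = coords b ⁻¹' (A ⁻¹' X) := by
    rw [LinearEquiv.image_eq_preimage_symm]
    rfl
  rw [himg]
  refine ⟨fun x hx => hJ.ball ?_, fun x hx => ?_, fun hle => ?_⟩
  · rw [mem_closedBall_zero_iff, ← sq_le_one_iff₀ (norm_nonneg _), norm_coords_sq]
    exact hx
  · rw [← repr_coords b x 0]
    exact (le_abs_self _).trans (hb _ hx)
  · have e : volume.real (coords b ⁻¹' (A ⁻¹' X)) = volume.real (A ⁻¹' X) := by
      rw [measureReal_def, measureReal_def,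
        (measurePreserving_coords b).measure_preimage_emb (measurableEmbedding_coords b)]
    set K := A ⁻¹' X with hK
    change (∫ t, slArea K b t ^ (((n : ℝ) - 1) / n)) ^ n ≤ _ at hle
    rw [e] at hle ⊢
    rw [volume_prof hn0 hJ hb] at hle ⊢
    rw [integral_rpow_prof hn hJ hb] at hle
    have h0 : 0 ≤ excess n (prof K b) := by
      simpa using h 0 contDiff_const fun t => by simp
    have hk := kappa_pos n
    have hκ : (kappa n ^ (((n : ℝ) - 1) / n)) ^ n = kappa n ^ (n - 1) := by
      rw [← Real.rpow_natCast, ← Real.rpow_mul hk.le, div_mul_cancel₀ _ (Nat.cast_ne_zero.2 hn0),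
        ← Nat.cast_one, ← Nat.cast_sub (by omega), Real.rpow_natCast]
    have hS := pw_semi_pos n
    have e2 : (2 : ℝ) ^ (n - 1) * 2 = 2 ^ n := by rw [← pow_succ, Nat.sub_add_cancel (by omega)]
    rw [mul_pow, mul_pow, mul_pow, mul_pow, hκ, pcN_ratio hn, ← e2] at hle
    rw [hL _ (prof_adm hn0 hJ b) h0 ?_, vol_bal, kappa_succ]
    refine le_of_mul_le_mul_left ?_ (show 0 < 2 ^ (n - 1) * 2 * kappa n ^ (n - 1) by positivity)
    rw [div_mul_eq_mul_div, le_div_iff₀ (by positivity)] at hle
    linarith

end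

end Vale.Agent.P237.Gen.Eq
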