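import Vale.Agent.P237.Gen.Equality.Main
import Vale.Agent.P237.Gen.Euclid

/-!
Equality in Petty's inequality in Euclidean space: exactly the ellipsoids.
-/

open MeasureTheory Set Pointwise Metric

namespace Vale.Agent.P237.Gen.Eq

noncomputable section

variable {n : ℕ}

theorem piBody_vadd (x : Fin (n + 1) → ℝ) (S : Set (Fin (n + 1) → ℝ)) :
    piBody (x +ᵥ S) = piBody S := by
  have hvol : ∀ A : Set (Fin (n + 1) → ℝ), volume.real (x +ᵥ A) = volume.real A := fun A => by
    rw [measureReal_def, measure_vadd, measureReal_def]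
  have hpA : ∀ u, pA (x +ᵥ S) u = pA S u := fun u => by
    rw [pA, pA, vadd_add_assoc, hvol, hvol]
  simp only [piBody, hpA]

/-- Coordinates of Euclidean space. -/
def cw : EuclideanSpace ℝ (Fin (n + 1)) ≃ₗ[ℝ] (Fin (n + 1) → ℝ) :=
  WithLp.linearEquiv 2 ℝ (Fin (n + 1) → ℝ)

theorem vol_cw {K : Set (EuclideanSpace ℝ (Fin (n + 1)))} (hk : IsCompact K) :
    volume.real (cw '' K) = volume.real K := by
  have e : K = WithLp.ofLp ⁻¹' (cw '' K) := (preimage_image_eq K (WithLp.ofLp_injective 2)).symm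
  have hm : MeasurableSet (cw '' K) := (hk.image (PiLp.continuous_ofLp 2 _)).measurableSet
  conv_rhs => rw [e]
  rw [measureReal_def, measureReal_def,
    (PiLp.volume_preserving_ofLp (Fin (n + 1))).measure_preimage hm.nullMeasurableSet]

theorem vol_projBody {K : Set (EuclideanSpace ℝ (Fin (n + 1)))} (hc : Convex ℝ K) (hk : IsCompact K) :
    volume.real (Gen.projBody K) = volume.real (piBody (cw '' K)) := by
  rw [Gen.projBody_eq hc hk, measureReal_def (s := WithLp.ofLp ⁻¹' _),
    (PiLp.volume_preserving_ofLp (Fin (n + 1))).measure_preimage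
      (show IsCompact (AllN.piSet (WithLp.ofLp '' K)) from
        AllN.isCompact_sub _).measurableSet.nullMeasurableSet, ← measureReal_def]
  rfl

theorem cw_ball : cw '' closedBall (0 : EuclideanSpace ℝ (Fin (n + 1))) 1 = bal n :=
  bal_eq_image.symm

/-- Equality holds exactly for ellipsoids. -/
theorem projBody_eq_iff_slice (hn : 2 ≤ n) {c k : ℝ} (hc : 0 < c) (hk : 0 < k)
    (hck : c * k = pcN (n + 1))
    (hlow : ∀ S : Set (Fin n → ℝ), IsCompact S → Convex ℝ S →
      c * volume.real S ^ (n - 1) ≤ volume.real (AllN.piSet S))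
    (hP : Petty n (c * k)) (hcon : SliceEq n k)
    {K : Set (EuclideanSpace ℝ (Fin (n + 1)))} (hKc : Convex ℝ K) (hKk : IsCompact K)
    (hi : (interior K).Nonempty) :
    volume.real (Gen.projBody K) = pcN (n + 1) * volume.real K ^ n ↔
      ∃ (a : EuclideanSpace ℝ (Fin (n + 1)))
        (T : EuclideanSpace ℝ (Fin (n + 1)) ≃ₗ[ℝ] EuclideanSpace ℝ (Fin (n + 1))),
        K = (fun x => a + T x) '' closedBall 0 1 := by
  have hvadd : ∀ (x : Fin (n + 1) → ℝ) (A : Set (Fin (n + 1) → ℝ)),
      volume.real (x +ᵥ A) = volume.real A := fun x A => by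
    rw [measureReal_def, measure_vadd, measureReal_def]
  rw [vol_projBody hKc hKk, ← vol_cw hKk]
  constructor
  · intro h
    obtain ⟨x, hx⟩ := hi
    set S := -(cw x) +ᵥ (cw '' K) with hS
    have hSB : Body S := by
      refine ⟨(hKc.linear_image cw.toLinearMap).vadd _,
        (hKk.image (PiLp.continuous_ofLp 2 _)).vadd _, ?_⟩
      rw [hS, interior_vadd]
      refine ⟨cw x, ?_, neg_add_cancel _⟩
      have := (PiLp.homeomorph 2 fun _ : Fin (n + 1) => ℝ).image_interior K
      rw [show (PiLp.homeomorph 2 fun _ : Fin (n + 1) => ℝ) '' K = cw '' K from rfl] at this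
      rw [← this]
      exact ⟨x, hx, rfl⟩
    obtain ⟨M, v, hM⟩ := eq_case hn hc hk hlow hP hcon hSB (by
      rw [hS, piBody_vadd, hvadd, hck]; exact h.le)
    refine ⟨x + cw.symm v, (cw.trans M).trans cw.symm, ?_⟩
    have e : K = cw.symm '' (cw x +ᵥ S) := by
      rw [hS, vadd_vadd, add_neg_cancel, zero_vadd, image_image]
      simp
    rw [e, hM, ← cw_ball, ← image_vadd]
    simp only [image_image]
    refine image_congr fun z _ => ?_
    simp only [LinearEquiv.trans_apply, vadd_eq_add, map_add, LinearEquiv.symm_apply_apply]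
    abel
  · rintro ⟨a, T, rfl⟩
    set M : (Fin (n + 1) → ℝ) ≃ₗ[ℝ] (Fin (n + 1) → ℝ) := (cw.symm.trans T).trans cw with hM
    have e : cw '' ((fun x => a + T x) '' closedBall (0 : EuclideanSpace ℝ (Fin (n + 1))) 1)
        = cw a +ᵥ (M '' bal n) := by
      rw [← cw_ball, ← image_vadd]
      simp [image_image, hM, map_add]
    rw [e, piBody_vadd, hvadd]
    exact ellipsoid_attains (by omega) M

/-- Equality holds exactly for ellipsoids, from a strict contact bound. -/
theorem projBody_eq_iff (hn : 2 ≤ n) {c k : ℝ} (hc : 0 < c) (hk : 0 < k)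
    (hck : c * k = pcN (n + 1))
    (hlow : ∀ S : Set (Fin n → ℝ), IsCompact S → Convex ℝ S →
      c * volume.real S ^ (n - 1) ≤ volume.real (AllN.piSet S))
    (hP : Petty n (c * k)) (hcon : ContactEq n k)
    {K : Set (EuclideanSpace ℝ (Fin (n + 1)))} (hKc : Convex ℝ K) (hKk : IsCompact K)
    (hi : (interior K).Nonempty) :
    volume.real (Gen.projBody K) = pcN (n + 1) * volume.real K ^ n ↔
      ∃ (a : EuclideanSpace ℝ (Fin (n + 1)))
        (T : EuclideanSpace ℝ (Fin (n + 1)) ≃ₗ[ℝ] EuclideanSpace ℝ (Fin (n + 1))),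
        K = (fun x => a + T x) '' closedBall 0 1 :=
  projBody_eq_iff_slice hn hc hk hck hlow hP hcon.slice hKc hKk hi

end

end Vale.Agent.P237.Gen.Eq
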