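import Vale.Agent.P237.Gen.Stab
import Vale.Agent.P254.Body
import Vale.Agent.P237.AllN.Slice

/-!
Slice areas and volume below a height, and equality in Brunn-Minkowski for two bodies of equal
volume: their slice profiles differ by a translation.
-/

open MeasureTheory Set Pointwise Filter Topology
open Vale.P254 (sl slVol integral_slice continuous_cons)

namespace Vale.Agent.P237.Gen.Cum

noncomputable section

open Mx (rt rt_pos rt_pow rt_nonneg)

variable {n : ℕ}

/-- Compact, convex, with interior points. -/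
def Fat (S : Set (Fin (n + 1) → ℝ)) : Prop := Convex ℝ S ∧ IsCompact S ∧ (interior S).Nonempty

/-- The interval of first coordinates. -/
def Rng (S : Set (Fin (n + 1) → ℝ)) (p q : ℝ) : Prop :=
  (∀ x ∈ S, p ≤ x 0 ∧ x 0 ≤ q) ∧ (∃ x ∈ S, x 0 = p) ∧ ∃ x ∈ S, x 0 = q

/-- Volume below height `s`. -/
def cum (S : Set (Fin (n + 1) → ℝ)) (s : ℝ) : ℝ := volume.real (S ∩ {x | x 0 ≤ s})

lemma Fat.ne {S : Set (Fin (n + 1) → ℝ)} (h : Fat S) : S.Nonempty := h.2.2.mono interior_subset

lemma Fat.vol_pos {S : Set (Fin (n + 1) → ℝ)} (h : Fat S) : 0 < volume.real S :=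
  ENNReal.toReal_pos (Measure.measure_pos_of_nonempty_interior _ h.2.2).ne' h.2.1.measure_lt_top.ne

lemma exists_rng {S : Set (Fin (n + 1) → ℝ)} (h : Fat S) : ∃ p q, Rng S p q := by
  have hc : ContinuousOn (fun x : (Fin (n + 1) → ℝ) => x 0) S := (continuous_apply 0).continuousOn
  obtain ⟨x, hx, hx'⟩ := h.2.1.exists_isMinOn h.ne hc
  obtain ⟨y, hy, hy'⟩ := h.2.1.exists_isMaxOn h.ne hc
  exact ⟨x 0, y 0, fun z hz => ⟨hx' hz, hy' hz⟩, ⟨x, hx, rfl⟩, ⟨y, hy, rfl⟩⟩

lemma plane_null (s : ℝ) : volume {x : (Fin (n + 1) → ℝ) | x 0 = s} = 0 := by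
  rw [volume_pi]
  exact Measure.pi_hyperplane (fun _ : Fin (n + 1) => (volume : Measure ℝ)) 0 s

lemma isClosed_le0 (s : ℝ) : IsClosed {x : (Fin (n + 1) → ℝ) | x 0 ≤ s} :=
  isClosed_le (continuous_apply 0) continuous_const

lemma isClosed_ge0 (s : ℝ) : IsClosed {x : (Fin (n + 1) → ℝ) | s ≤ x 0} :=
  isClosed_le continuous_const (continuous_apply 0)

lemma isCompact_sl {S : Set (Fin (n + 1) → ℝ)} (h : IsCompact S) (t : ℝ) : IsCompact (sl S t) :=
  (h.image (f := fun x i => x (Fin.succ i)) (by fun_prop)).of_isClosed_subset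
    (h.isClosed.preimage (continuous_cons t)) fun y hy => ⟨_, hy, by simp⟩

lemma combo_cons (p q s t : ℝ) (x y : Fin n → ℝ) :
    p • (Fin.cons s x : (Fin (n + 1) → ℝ)) + q • Fin.cons t y = Fin.cons (p * s + q * t) (p • x + q • y) := by
  funext i
  refine Fin.cases ?_ (fun j => ?_) i <;> simp

lemma convex_sl {S : Set (Fin (n + 1) → ℝ)} (h : Convex ℝ S) (t : ℝ) : Convex ℝ (sl S t) := by
  intro x hx y hy p q hp hq hpq
  have := h hx hy hp hq hpq
  rwa [combo_cons, ← add_mul, hpq, one_mul] at this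

lemma slVol_nonneg (S : Set (Fin (n + 1) → ℝ)) (t : ℝ) : 0 ≤ slVol S t := measureReal_nonneg

lemma integral_slVol {S : Set (Fin (n + 1) → ℝ)} (h : IsCompact S) :
    Integrable (slVol S) ∧ volume.real S = ∫ t, slVol S t := by
  have h' := integral_slice h (f := fun _ => (1 : ℝ)) continuous_const
  rw [show slVol S = fun t => volume.real (sl S t) from rfl]
  simpa using h'

lemma integral_first {S : Set (Fin (n + 1) → ℝ)} (h : IsCompact S) :
    Integrable (fun t => t * slVol S t) ∧ ∫ x in S, x 0 = ∫ t, t * slVol S t := by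
  have h' := integral_slice h (f := fun x : (Fin (n + 1) → ℝ) => x 0) (continuous_apply 0)
  simpa [slVol, mul_comm] using h'

lemma cum_eq {S : Set (Fin (n + 1) → ℝ)} (h : IsCompact S) (s : ℝ) :
    cum S s = ∫ t in Iic s, slVol S t := by
  rw [cum, (integral_slVol (h.inter_right (isClosed_le0 s))).2, ← integral_indicator measurableSet_Iic]
  refine integral_congr_ae (Eventually.of_forall fun t => ?_)
  by_cases ht : t ≤ s
  · have : sl (S ∩ {x | x 0 ≤ s}) t = sl S t := by ext y; simp [sl, ht]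
    simp [slVol, this, ht]
  · have : sl (S ∩ {x | x 0 ≤ s}) t = ∅ := by ext y; simp [sl, ht]
    simp [slVol, this, ht]

lemma cum_eq_add {S : Set (Fin (n + 1) → ℝ)} (h : IsCompact S) (a s : ℝ) :
    cum S s = cum S a + ∫ t in a..s, slVol S t := by
  have hi := (integral_slVol h).1
  rw [cum_eq h, cum_eq h,
    ← intervalIntegral.integral_Iic_sub_Iic hi.integrableOn hi.integrableOn]
  ring

lemma continuous_cum {S : Set (Fin (n + 1) → ℝ)} (h : IsCompact S) : Continuous (cum S) := by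
  have hi := (integral_slVol h).1
  rw [show cum S = fun s => cum S 0 + ∫ t in (0:ℝ)..s, slVol S t from funext (cum_eq_add h 0)]
  exact continuous_const.add
    (intervalIntegral.continuous_primitive (fun _ _ => hi.intervalIntegrable) 0)

lemma cum_left {S : Set (Fin (n + 1) → ℝ)} {p q : ℝ} (hr : Rng S p q) : cum S p = 0 := by
  have h0 : volume (S ∩ {x | x 0 ≤ p}) = 0 :=
    measure_mono_null (fun x hx => le_antisymm hx.2 (hr.1 x hx.1).1) (plane_null p)
  simp [cum, measureReal_def, h0]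

lemma cum_right {S : Set (Fin (n + 1) → ℝ)} {p q : ℝ} (hr : Rng S p q) : cum S q = volume.real S := by
  rw [cum, inter_eq_left.2 (show S ⊆ {x | x 0 ≤ q} from fun x hx => (hr.1 x hx).2)]

lemma slVol_out {S : Set (Fin (n + 1) → ℝ)} {p q t : ℝ} (hr : Rng S p q) (ht : t < p ∨ q < t) :
    slVol S t = 0 := by
  have : sl S t = ∅ := eq_empty_of_forall_notMem fun y hy => by
    have := hr.1 _ hy
    simp only [Fin.cons_zero] at this
    rcases ht with ht | ht <;> linarith
  simp [slVol, this]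

lemma slVol_pos {S : Set (Fin (n + 1) → ℝ)} {p q s : ℝ} (h : Fat S) (hr : Rng S p q) (hs : s ∈ Ioo p q) :
    0 < slVol S s := by
  obtain ⟨z, hz⟩ := h.2.2
  have key : ∀ w ∈ S, ∀ α : ℝ, 0 ≤ α → α < 1 → (1 - α) * z 0 + α * w 0 = s →
      ∃ x ∈ interior S, x 0 = s := fun w hw α h0 h1 he =>
    ⟨(1 - α) • z + α • w,
      h.1.combo_interior_self_mem_interior hz hw (by linarith) h0 (by ring), by simpa using he⟩
  obtain ⟨x, hx, hx0⟩ : ∃ x ∈ interior S, x 0 = s := by
    obtain ⟨-, ⟨a, ha, ha0⟩, ⟨b, hb, hb0⟩⟩ := hr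
    rcases le_total (z 0) s with hzs | hzs
    · have hd : 0 < q - z 0 := by linarith [hs.2]
      refine key b hb ((s - z 0) / (q - z 0)) (div_nonneg (by linarith) hd.le)
        ((div_lt_one hd).2 (by linarith [hs.2])) ?_
      rw [hb0]; field_simp; ring
    · have hd : 0 < z 0 - p := by linarith [hs.1]
      refine key a ha ((z 0 - s) / (z 0 - p)) (div_nonneg (by linarith) hd.le)
        ((div_lt_one hd).2 (by linarith [hs.1])) ?_
      rw [ha0]; field_simp; ring
  have hsub : (fun y : Fin n → ℝ => (Fin.cons s y : (Fin (n + 1) → ℝ))) ⁻¹' interior S ⊆ sl S s :=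
    fun y hy => (interior_subset (s := S) hy : _)
  have hpos := (isOpen_interior.preimage (continuous_cons s)).measure_pos volume
    ⟨fun i => x i.succ, by
      show (Fin.cons s _ : (Fin (n + 1) → ℝ)) ∈ interior S
      convert hx using 1
      funext i
      refine Fin.cases ?_ (fun j => ?_) i <;> simp [hx0]⟩
  exact ENNReal.toReal_pos (hpos.trans_le (measure_mono hsub)).ne'
    (isCompact_sl h.2.1 s).measure_lt_top.ne

lemma sl_nonempty {S : Set (Fin (n + 1) → ℝ)} {s : ℝ} (h : 0 < slVol S s) : (sl S s).Nonempty :=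
  nonempty_iff_ne_empty.2 fun e => by simp [slVol, e] at h

lemma concave_root (hn : n ≠ 0) {S : Set (Fin (n + 1) → ℝ)} {p q : ℝ} (h : Fat S) (hr : Rng S p q) :
    ConcaveOn ℝ (Ioo p q) fun t => rt n (slVol S t) := by
  refine ⟨convex_Ioo _ _, fun s hs t ht a b ha hb hab => ?_⟩
  simp only [smul_eq_mul]
  have hc := AllN.root_add_le hn ((isCompact_sl h.2.1 s).smul a) ((isCompact_sl h.2.1 t).smul b)
    ((convex_sl h.1 s).smul a) ((convex_sl h.1 t).smul b)
    (sl_nonempty (slVol_pos h hr hs)).smul_set (sl_nonempty (slVol_pos h hr ht)).smul_set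
  rw [AllN.root_smul hn _ ha, AllN.root_smul hn _ hb] at hc
  refine hc.trans ?_
  refine Real.rpow_le_rpow measureReal_nonneg (measureReal_mono ?_
    (isCompact_sl h.2.1 _).measure_lt_top.ne) (by positivity)
  rintro _ ⟨_, ⟨x, hx, rfl⟩, _, ⟨y, hy, rfl⟩, rfl⟩
  have := h.1 hx hy ha hb hab
  rwa [combo_cons] at this

lemma continuousAt_slVol (hn : n ≠ 0) {S : Set (Fin (n + 1) → ℝ)} {p q s : ℝ} (h : Fat S)
    (hr : Rng S p q) (hs : s ∈ Ioo p q) : ContinuousAt (slVol S) s := by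
  have hc := ((concave_root hn h hr).continuousOn isOpen_Ioo).continuousAt (isOpen_Ioo.mem_nhds hs)
  have e : slVol S = fun t => rt n (slVol S t) ^ n :=
    funext fun t => (rt_pow hn (slVol_nonneg S t)).symm
  rw [e]
  exact hc.pow n

lemma hasDerivAt_cum (hn : n ≠ 0) {S : Set (Fin (n + 1) → ℝ)} {p q s : ℝ} (h : Fat S) (hr : Rng S p q) (hs : s ∈ Ioo p q) :
    HasDerivAt (cum S) (slVol S s) s := by
  have hi := (integral_slVol h.2.1).1
  rw [show cum S = fun x => cum S 0 + ∫ t in (0:ℝ)..x, slVol S t from funext (cum_eq_add h.2.1 0)]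
  exact (intervalIntegral.integral_hasDerivAt_right hi.intervalIntegrable
    hi.aestronglyMeasurable.stronglyMeasurableAtFilter (continuousAt_slVol hn h hr hs)).const_add _

lemma strictMonoOn_cum (hn : n ≠ 0) {S : Set (Fin (n + 1) → ℝ)} {p q : ℝ} (h : Fat S) (hr : Rng S p q) :
    StrictMonoOn (cum S) (Icc p q) := by
  refine strictMonoOn_of_deriv_pos (convex_Icc p q) (continuous_cum h.2.1).continuousOn fun t ht => ?_
  rw [interior_Icc] at ht
  rw [(hasDerivAt_cum hn h hr ht).deriv]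
  exact slVol_pos h hr ht

lemma rng_lt {S : Set (Fin (n + 1) → ℝ)} {p q : ℝ} (h : Fat S) (hr : Rng S p q) : p < q := by
  obtain ⟨-, ⟨a, ha, ha0⟩, -⟩ := id hr
  rcases (ha0 ▸ (hr.1 a ha).2 : p ≤ q).eq_or_lt with e | e
  · have := h.vol_pos
    rw [← cum_right hr, ← e, cum_left hr] at this
    exact absurd this (lt_irrefl 0)
  · exact e

lemma cum_mem (hn : n ≠ 0) {S : Set (Fin (n + 1) → ℝ)} {p q s : ℝ} (h : Fat S) (hr : Rng S p q) (hs : s ∈ Ioo p q) :
    cum S s ∈ Ioo 0 (volume.real S) := by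
  have hpq := (rng_lt h hr).le
  constructor
  · rw [← cum_left hr]
    exact strictMonoOn_cum hn h hr (left_mem_Icc.2 hpq) (Ioo_subset_Icc_self hs) hs.1
  · rw [← cum_right hr]
    exact strictMonoOn_cum hn h hr (Ioo_subset_Icc_self hs) (right_mem_Icc.2 hpq) hs.2

lemma exists_height {S : Set (Fin (n + 1) → ℝ)} {p q F : ℝ} (h : Fat S) (hr : Rng S p q)
    (hF : F ∈ Ioo 0 (volume.real S)) : ∃ s ∈ Ioo p q, cum S s = F := by
  rw [← cum_left hr, ← cum_right hr] at hF
  exact intermediate_value_Ioo (rng_lt h hr).le (continuous_cum h.2.1).continuousOn hF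

/-- The height below which a given volume lies. -/
def hgt (S : Set (Fin (n + 1) → ℝ)) (p q F : ℝ) : ℝ := Function.invFunOn (cum S) (Ioo p q) F

lemma hgt_spec {S : Set (Fin (n + 1) → ℝ)} {p q F : ℝ} (h : Fat S) (hr : Rng S p q)
    (hF : F ∈ Ioo 0 (volume.real S)) : hgt S p q F ∈ Ioo p q ∧ cum S (hgt S p q F) = F :=
  ⟨Function.invFunOn_mem (exists_height h hr hF), Function.invFunOn_eq (exists_height h hr hF)⟩

lemma hgt_cum (hn : n ≠ 0) {S : Set (Fin (n + 1) → ℝ)} {p q r : ℝ} (h : Fat S) (hr : Rng S p q) (hs : r ∈ Ioo p q) :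
    hgt S p q (cum S r) = r := by
  obtain ⟨h1, h2⟩ := hgt_spec h hr (cum_mem hn h hr hs)
  exact (strictMonoOn_cum hn h hr).injOn (Ioo_subset_Icc_self h1) (Ioo_subset_Icc_self hs) h2

lemma continuousAt_hgt (hn : n ≠ 0) {S : Set (Fin (n + 1) → ℝ)} {p q F : ℝ} (h : Fat S) (hr : Rng S p q)
    (hF : F ∈ Ioo 0 (volume.real S)) : ContinuousAt (hgt S p q) F := by
  obtain ⟨hs, he⟩ := hgt_spec h hr hF
  have hm := strictMonoOn_cum hn h hr
  refine tendsto_order.2 ⟨fun a ha => ?_, fun a ha => ?_⟩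
  · obtain ⟨r, hr1, hr2⟩ := exists_between (max_lt ha hs.1)
    rw [max_lt_iff] at hr1
    have hrI : r ∈ Icc p q := ⟨hr1.2.le, (hr2.trans hs.2).le⟩
    have hlt : cum S r < F := he ▸ hm hrI (Ioo_subset_Icc_self hs) hr2
    filter_upwards [isOpen_Ioo.mem_nhds hF, Ioi_mem_nhds hlt] with y hy hy'
    obtain ⟨hy1, hy2⟩ := hgt_spec h hr hy
    have : r < hgt S p q y := (hm.lt_iff_lt hrI (Ioo_subset_Icc_self hy1)).1 (by rw [hy2]; exact hy')
    linarith
  · obtain ⟨r, hr1, hr2⟩ := exists_between (lt_min ha hs.2)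
    rw [lt_min_iff] at hr2
    have hrI : r ∈ Icc p q := ⟨(hs.1.trans hr1).le, hr2.2.le⟩
    have hlt : F < cum S r := he ▸ hm (Ioo_subset_Icc_self hs) hrI hr1
    filter_upwards [isOpen_Ioo.mem_nhds hF, Iio_mem_nhds hlt] with y hy hy'
    obtain ⟨hy1, hy2⟩ := hgt_spec h hr hy
    have : hgt S p q y < r := (hm.lt_iff_lt (Ioo_subset_Icc_self hy1) hrI).1 (by rw [hy2]; exact hy')
    linarith

lemma hasDerivAt_hgt (hn : n ≠ 0) {S : Set (Fin (n + 1) → ℝ)} {p q F : ℝ} (h : Fat S) (hr : Rng S p q)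
    (hF : F ∈ Ioo 0 (volume.real S)) :
    HasDerivAt (hgt S p q) (slVol S (hgt S p q F))⁻¹ F := by
  obtain ⟨hs, -⟩ := hgt_spec h hr hF
  refine HasDerivAt.of_local_left_inverse (continuousAt_hgt hn h hr hF) (hasDerivAt_cum hn h hr hs)
    (slVol_pos h hr hs).ne' ?_
  filter_upwards [isOpen_Ioo.mem_nhds hF] with y hy using (hgt_spec h hr hy).2

/-- Brunn-Minkowski for two convex bodies with volumes at least `F`. -/
lemma two_pow_le {S T C : Set (Fin (n + 1) → ℝ)} (hS : IsCompact S) (hT : IsCompact T)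
    (hSc : Convex ℝ S) (hTc : Convex ℝ T) (hC : IsCompact C) {F : ℝ} (hF : 0 < F)
    (hFS : F ≤ volume.real S) (hFT : F ≤ volume.real T) (hsub : S + T ⊆ C) :
    2 ^ (n + 1) * F ≤ volume.real C := by
  have hne : ∀ {A : Set (Fin (n + 1) → ℝ)}, F ≤ volume.real A → A.Nonempty := fun {A} h =>
    nonempty_iff_ne_empty.2 fun e => by
      rw [e, measureReal_empty] at h; linarith
  have h1 := AllN.root_add_le n.succ_ne_zero hS hT hSc hTc (hne hFS) (hne hFT)
  have hST : IsCompact (S + T) := hS.add hT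
  have h2 : 2 * rt (n + 1) F ≤ rt (n + 1) (volume.real C) := by
    have := Mx.rt_mono (n := n + 1) hF.le hFS
    have := Mx.rt_mono (n := n + 1) hF.le hFT
    have := Mx.rt_mono (n := n + 1) measureReal_nonneg
      (measureReal_mono (μ := volume) hsub hC.measure_lt_top.ne)
    change rt (n + 1) (volume.real S) + rt (n + 1) (volume.real T) ≤
      rt (n + 1) (volume.real (S + T)) at h1
    linarith
  calc 2 ^ (n + 1) * F = (2 * rt (n + 1) F) ^ (n + 1) := by rw [mul_pow, rt_pow n.succ_ne_zero hF.le]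
    _ ≤ rt (n + 1) (volume.real C) ^ (n + 1) := pow_le_pow_left₀
        (mul_nonneg zero_le_two (rt_nonneg hF.le)) h2 _
    _ = _ := rt_pow n.succ_ne_zero measureReal_nonneg

/-- In the equality case the volume below matching heights is matched. -/
lemma cum_add {X Y : Set (Fin (n + 1) → ℝ)} (hX : Fat X) (hY : Fat Y) (hv : volume.real X = volume.real Y)
    (h : volume.real (X + Y) ≤ 2 ^ (n + 1) * volume.real X) {s r : ℝ}
    (hs : cum X s ∈ Ioo 0 (volume.real X)) (he : cum Y r = cum X s) :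
    cum (X + Y) (s + r) = 2 ^ (n + 1) * cum X s := by
  have hC : IsCompact (X + Y) := hX.2.1.add hY.2.1
  have hcx : ∀ t : ℝ, Convex ℝ {x : (Fin (n + 1) → ℝ) | x 0 ≤ t} ∧ Convex ℝ {x : (Fin (n + 1) → ℝ) | t ≤ x 0} := fun t =>
    ⟨convex_halfSpace_le (LinearMap.proj (R := ℝ) (φ := fun _ : Fin (n + 1) => ℝ) 0).isLinear t,
      convex_halfSpace_ge (LinearMap.proj (R := ℝ) (φ := fun _ : Fin (n + 1) => ℝ) 0).isLinear t⟩
  have h1 : 2 ^ (n + 1) * cum X s ≤ cum (X + Y) (s + r) :=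
    two_pow_le (hX.2.1.inter_right (isClosed_le0 s)) (hY.2.1.inter_right (isClosed_le0 r))
      (hX.1.inter (hcx s).1) (hY.1.inter (hcx r).1) (hC.inter_right (isClosed_le0 _)) hs.1 le_rfl
      he.ge (by
        rintro _ ⟨x, ⟨hx, hx'⟩, y, ⟨hy, hy'⟩, rfl⟩
        exact ⟨add_mem_add hx hy, (add_le_add hx' hy' : x 0 + y 0 ≤ s + r)⟩)
  have hup : ∀ {S : Set (Fin (n + 1) → ℝ)}, IsCompact S → ∀ t,
      volume.real S ≤ cum S t + volume.real (S ∩ {x | t ≤ x 0}) := fun {S} hS t => by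
    refine le_trans (measureReal_mono (fun x hx => ?_) ?_) (measureReal_union_le _ _)
    · rcases le_total (x 0) t with h | h
      exacts [Or.inl ⟨hx, h⟩, Or.inr ⟨hx, h⟩]
    · exact ((hS.inter_right (isClosed_le0 t)).union (hS.inter_right (isClosed_ge0 t))).measure_lt_top.ne
  have hux := hup hX.2.1 s
  have huy := hup hY.2.1 r
  have h2 : 2 ^ (n + 1) * (volume.real X - cum X s) ≤ volume.real ((X + Y) ∩ {x | s + r ≤ x 0}) :=
    two_pow_le (hX.2.1.inter_right (isClosed_ge0 s)) (hY.2.1.inter_right (isClosed_ge0 r))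
      (hX.1.inter (hcx s).2) (hY.1.inter (hcx r).2) (hC.inter_right (isClosed_ge0 _))
      (by linarith [hs.2]) (by linarith) (by linarith) (by
        rintro _ ⟨x, ⟨hx, hx'⟩, y, ⟨hy, hy'⟩, rfl⟩
        exact ⟨add_mem_add hx hy, (add_le_add hx' hy' : s + r ≤ x 0 + y 0)⟩)
  have h3 : cum (X + Y) (s + r) + volume.real ((X + Y) ∩ {x | s + r ≤ x 0})
      ≤ volume.real (X + Y) := by
    have hA := hC.inter_right (isClosed_le0 (s + r))
    have hB := hC.inter_right (isClosed_ge0 (s + r))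
    have hn : volume (((X + Y) ∩ {x | x 0 ≤ s + r}) ∩ ((X + Y) ∩ {x | s + r ≤ x 0})) = 0 :=
      measure_mono_null (fun x hx => le_antisymm hx.1.2 hx.2.2) (plane_null (s + r))
    have := measureReal_union_add_inter (μ := volume) (s := (X + Y) ∩ {x | x 0 ≤ s + r})
      hB.measurableSet hA.measure_lt_top.ne hB.measure_lt_top.ne
    rw [measureReal_def (s := _ ∩ _ ∩ _), hn, ENNReal.toReal_zero, add_zero] at this
    rw [cum, ← this]
    exact measureReal_mono (union_subset inter_subset_left inter_subset_left) hC.measure_lt_top.ne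
  linarith

lemma eq_of_ineq (hn : n ≠ 0) {a b c : ℝ} (ha : 0 < a) (hb : 0 < b)
    (hc : (rt n a + rt n b) ^ n ≤ c) (h : c * (1 + b⁻¹ * a) = 2 ^ (n + 1) * a) : a = b := by
  have h0 : (0 : ℝ) ≤ 1 / a + 1 / b := by positivity
  have hk := ratio_near hn (ε := 0) (t := 0) le_rfl (by norm_num) (by norm_num) ha hb (by
    calc (rt n a + rt n b) ^ n * (1 / a + 1 / b) ≤ c * (1 / a + 1 / b) :=
          mul_le_mul_of_nonneg_right hc h0
      _ = c * (1 + b⁻¹ * a) / a := by field_simp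
      _ = _ := by rw [h, add_zero, mul_div_assoc, div_self ha.ne', mul_one])
  simp only [sub_zero, add_zero, one_pow, one_mul] at hk
  exact le_antisymm hk.1 hk.2

/-- Equality in Brunn-Minkowski at equal volumes translates the slice profile. -/
theorem slice_translate (hn : n ≠ 0) {X Y : Set (Fin (n + 1) → ℝ)} (hX : Fat X) (hY : Fat Y)
    (hv : volume.real X = volume.real Y) (h : volume.real (X + Y) ≤ 2 ^ (n + 1) * volume.real X)
    {pY qY : ℝ} (hrY : Rng Y pY qY) :
    ∃ m, (∀ x ∈ X, x 0 ≤ qY + m) ∧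
      ∫ x in X, x 0 = (∫ x in Y, x 0) + m * volume.real Y := by
  obtain ⟨p, q, hr⟩ := exists_rng hX
  have hF : ∀ s ∈ Ioo p q, cum X s ∈ Ioo 0 (volume.real Y) := fun s hs => hv ▸ cum_mem hn hX hr hs
  set T : ℝ → ℝ := fun s => hgt Y pY qY (cum X s) with hT
  have hTI : ∀ s ∈ Ioo p q, T s ∈ Ioo pY qY := fun s hs => (hgt_spec hY hrY (hF s hs)).1
  have hFC : Fat (X + Y) := by
    obtain ⟨y, hy⟩ := hY.ne
    refine ⟨hX.1.add hY.1, hX.2.1.add hY.2.1, ?_⟩
    obtain ⟨x, hx⟩ := hX.2.2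
    refine ⟨y + x, mem_interior.2 ⟨(fun z => y + z) '' interior X, ?_,
      isOpenMap_add_left y _ isOpen_interior, mem_image_of_mem _ hx⟩⟩
    rintro _ ⟨z, hz, rfl⟩
    exact ⟨z, interior_subset hz, y, hy, add_comm z y⟩
  have hrC : Rng (X + Y) (p + pY) (q + qY) := by
    obtain ⟨h1, ⟨a, ha, ha'⟩, ⟨b, hb, hb'⟩⟩ := hr
    obtain ⟨g1, ⟨c, hc, hc'⟩, ⟨d, hd, hd'⟩⟩ := hrY
    refine ⟨?_, ⟨a + c, add_mem_add ha hc, by simp [ha', hc']⟩,
      ⟨b + d, add_mem_add hb hd, by simp [hb', hd']⟩⟩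
    rintro _ ⟨x, hx, y, hy, rfl⟩
    exact ⟨add_le_add (h1 x hx).1 (g1 y hy).1, add_le_add (h1 x hx).2 (g1 y hy).2⟩
  have key : ∀ s ∈ Ioo p q, HasDerivAt T 1 s ∧ slVol X s = slVol Y (T s) := by
    intro s hs
    set a := slVol X s with ha
    set b := slVol Y (T s) with hb
    have ha0 : 0 < a := slVol_pos hX hr hs
    have hb0 : 0 < b := slVol_pos hY hrY (hTI s hs)
    have hdT : HasDerivAt T (b⁻¹ * a) s :=
      (hasDerivAt_hgt hn hY hrY (hF s hs)).comp s (hasDerivAt_cum hn hX hr hs)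
    have hz : s + T s ∈ Ioo (p + pY) (q + qY) :=
      ⟨add_lt_add hs.1 (hTI s hs).1, add_lt_add hs.2 (hTI s hs).2⟩
    have hd1 : HasDerivAt (fun y => cum (X + Y) (y + T y))
        (slVol (X + Y) (s + T s) * (1 + b⁻¹ * a)) s :=
      (hasDerivAt_cum hn hFC hrC hz).comp (h := fun y => y + T y) s ((hasDerivAt_id' s).add hdT)
    have heq : (fun y => cum (X + Y) (y + T y)) =ᶠ[𝓝 s] fun y => 2 ^ (n + 1) * cum X y := by
      filter_upwards [isOpen_Ioo.mem_nhds hs] with y hy
      exact cum_add hX hY hv h (cum_mem hn hX hr hy) (hgt_spec hY hrY (hF y hy)).2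
    have hd2 : HasDerivAt (fun y => cum (X + Y) (y + T y)) (2 ^ (n + 1) * a) s :=
      ((hasDerivAt_cum hn hX hr hs).const_mul (2 ^ (n + 1) : ℝ)).congr_of_eventuallyEq heq
    have hc : (rt n a + rt n b) ^ n ≤ slVol (X + Y) (s + T s) := by
      refine le_trans (le_trans (pow_le_pow_left₀ (add_nonneg (rt_nonneg ha0.le) (rt_nonneg hb0.le))
        (AllN.root_add_le hn (isCompact_sl hX.2.1 s) (isCompact_sl hY.2.1 _) (convex_sl hX.1 s)
          (convex_sl hY.1 _) (sl_nonempty ha0) (sl_nonempty hb0)) n) (le_of_eq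
            (rt_pow hn measureReal_nonneg)))
        (measureReal_mono ?_ (isCompact_sl hFC.2.1 _).measure_lt_top.ne)
      rintro _ ⟨x, hx, y, hy, rfl⟩
      refine ⟨_, hx, _, hy, ?_⟩
      funext i
      refine Fin.cases ?_ (fun j => ?_) i <;> simp
    have hab := eq_of_ineq hn ha0 hb0 hc (hd1.unique hd2)
    rw [← hab, inv_mul_cancel₀ ha0.ne'] at hdT
    exact ⟨hdT, hab⟩
  have hconst : ∀ s ∈ Ioo p q, ∀ t ∈ Ioo p q, s < t → T t - t = T s - s := by
    intro s hs t ht hst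
    have hsub : Icc s t ⊆ Ioo p q := fun u hu => ⟨hs.1.trans_le hu.1, hu.2.trans_lt ht.2⟩
    obtain ⟨c, -, hc⟩ := exists_hasDerivAt_eq_slope T (fun _ => (1 : ℝ)) hst
      (fun u hu => (key u (hsub hu)).1.continuousAt.continuousWithinAt)
      (fun u hu => (key u (hsub (Ioo_subset_Icc_self hu))).1)
    rw [eq_div_iff (by linarith)] at hc
    linarith
  obtain ⟨s0, hs0⟩ := exists_between (rng_lt hX hr)
  set m := s0 - T s0 with hm
  have hTm : ∀ s ∈ Ioo p q, T s = s - m := fun s hs => by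
    rcases lt_trichotomy s s0 with h1 | h1 | h1
    · linarith [hconst s hs s0 hs0 h1]
    · subst h1; linarith
    · linarith [hconst s0 hs0 s hs h1]
  have honto : ∀ r ∈ Ioo pY qY, r + m ∈ Ioo p q := fun r hr' => by
    obtain ⟨s, hs, he⟩ := exists_height hX hr (hv ▸ cum_mem hn hY hrY hr')
    have : T s = r := by rw [hT]; simp only; rw [he, hgt_cum hn hY hrY hr']
    rw [hTm s hs] at this
    rwa [show r + m = s by linarith]
  have hq : q ≤ qY + m := by
    by_contra hlt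
    rw [not_le] at hlt
    obtain ⟨s, h1, h2⟩ := exists_between (max_lt hlt (rng_lt hX hr))
    rw [max_lt_iff] at h1
    have := (hTI s ⟨h1.2, h2⟩).2
    rw [hTm s ⟨h1.2, h2⟩] at this
    linarith
  have hq' : qY + m ≤ q := by
    by_contra hlt
    rw [not_le] at hlt
    obtain ⟨r, h1, h2⟩ := exists_between (max_lt (show q - m < qY by linarith) (rng_lt hY hrY))
    rw [max_lt_iff] at h1
    have := (honto r ⟨h1.2, h2⟩).2
    linarith
  have hp' : p ≤ pY + m := by
    by_contra hlt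
    rw [not_le] at hlt
    obtain ⟨r, h1, h2⟩ := exists_between (lt_min (show pY < p - m by linarith) (rng_lt hY hrY))
    rw [lt_min_iff] at h2
    have := (honto r ⟨h1, h2.2⟩).1
    linarith
  refine ⟨m, fun x hx => (hr.1 x hx).2.trans hq, ?_⟩
  have hae : (fun t => t * slVol X t) =ᵐ[volume] fun t => t * slVol Y (t - m) := by
    filter_upwards [compl_mem_ae_iff.2 (measure_singleton p),
      compl_mem_ae_iff.2 (measure_singleton q)] with t htp htq
    simp only [mem_compl_iff, mem_singleton_iff] at htp htq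
    congr 1
    rcases lt_or_gt_of_ne htp with h1 | h1
    · rw [slVol_out hr (Or.inl h1), slVol_out hrY (Or.inl (by linarith))]
    rcases lt_or_gt_of_ne htq with h2 | h2
    · rw [(key t ⟨h1, h2⟩).2, hTm t ⟨h1, h2⟩]
    · rw [slVol_out hr (Or.inr h2), slVol_out hrY (Or.inr (by linarith))]
  obtain ⟨hi1, he1⟩ := integral_first hY.2.1
  obtain ⟨hi0, he0⟩ := integral_slVol hY.2.1
  rw [(integral_first hX.2.1).2, integral_congr_ae hae, he1, he0, ← integral_const_mul,
    ← integral_add hi1 (hi0.const_mul m), ← integral_sub_right_eq_self (fun u => u * slVol Y u + m * slVol Y u) m]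
  refine integral_congr_ae (Eventually.of_forall fun t => ?_)
  ring

end

end Vale.Agent.P237.Gen.Cum
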