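import Vale.Agent.P237.Gen.Equality.Ellipsoid
import Vale.Agent.P237.Gen.Equality.Cum
import Vale.Agent.P237.Gen.Contact.Main

/-!
Equality in Brunn-Minkowski against the Euclidean ball, and the projections of the ball.
-/

open MeasureTheory Set Pointwise Filter Metric
open scoped RealInnerProductSpace

namespace Vale.Agent.P237.Gen.Eq

open Cum
open Mx (body_map det_pos_abs)
open Contact (coords norm_coords_sq repr_coords measurePreserving_coords exists_basis_first)
open Every (kappa)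

noncomputable section

variable {n : ℕ}

theorem fat_bal : Fat (bal n) := ⟨bal_body.1, bal_body.2.1, ⟨0, bal_body.2.2⟩⟩

theorem rng_bal : Rng (bal n) (-1) 1 := by
  refine ⟨fun x hx => ?_, ⟨-Pi.single 0 1, ?_, by simp⟩, ⟨Pi.single 0 1, ?_, by simp⟩⟩
  · have h : x 0 ^ 2 ≤ 1 :=
      (Finset.single_le_sum (f := fun i => x i ^ 2) (fun i _ => sq_nonneg _) (Finset.mem_univ 0)).trans hx
    exact abs_le.1 ((sq_le_one_iff_abs_le_one _).1 h)
  all_goals simp [bal, Fin.sum_univ_succ]

theorem integral_bal_first : ∫ x in bal n, x 0 = 0 := by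
  have hp : MeasurePreserving (fun x : Fin (n + 1) → ℝ => -x) volume volume :=
    Measure.measurePreserving_neg volume
  have hpre : (fun x : Fin (n + 1) → ℝ => -x) ⁻¹' bal n = bal n := by ext x; simp [bal]
  have h := hp.setIntegral_preimage_emb (MeasurableEquiv.neg (Fin (n + 1) → ℝ)).measurableEmbedding
    (fun x => x 0) (bal n)
  rw [hpre] at h
  simp only [Pi.neg_apply, integral_neg] at h
  linarith

/-- The change of coordinates of an orthonormal basis. -/
def rot (b : OrthonormalBasis (Fin (n + 1)) ℝ (Contact.E n)) :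
    (Fin (n + 1) → ℝ) ≃ₗ[ℝ] (Fin (n + 1) → ℝ) :=
  ((WithLp.linearEquiv 2 ℝ (Fin (n + 1) → ℝ)).symm.trans b.repr.symm.toLinearEquiv).trans
    (WithLp.linearEquiv 2 ℝ (Fin (n + 1) → ℝ))

theorem rot_apply (b : OrthonormalBasis (Fin (n + 1)) ℝ (Contact.E n)) (x : Fin (n + 1) → ℝ) :
    rot b x = WithLp.ofLp (coords b x) := rfl

theorem rot_sq (b : OrthonormalBasis (Fin (n + 1)) ℝ (Contact.E n)) (x : Fin (n + 1) → ℝ) :
    ∑ i, rot b x i ^ 2 = ∑ i, x i ^ 2 := by
  rw [← norm_coords_sq b x, EuclideanSpace.norm_sq_eq]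
  simp [rot_apply, sq_abs]

theorem rot_bal (b : OrthonormalBasis (Fin (n + 1)) ℝ (Contact.E n)) :
    (rot b).symm '' bal n = bal n := by
  rw [LinearEquiv.image_symm_eq_preimage]
  ext x
  show ∑ i, rot b x i ^ 2 ≤ 1 ↔ ∑ i, x i ^ 2 ≤ 1
  rw [rot_sq]

theorem rot_measurePreserving (b : OrthonormalBasis (Fin (n + 1)) ℝ (Contact.E n)) :
    MeasurePreserving (rot b) volume volume :=
  (PiLp.volume_preserving_ofLp (Fin (n + 1))).comp (measurePreserving_coords b)

theorem rot_det (b : OrthonormalBasis (Fin (n + 1)) ℝ (Contact.E n)) :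
    |LinearMap.det (rot b : (Fin (n + 1) → ℝ) →ₗ[ℝ] (Fin (n + 1) → ℝ))| = 1 := by
  have h := Mx.volume_real_image (rot b) (bal n)
  have hi : rot b '' bal n = bal n := by
    conv_lhs => rw [← rot_bal b]
    rw [image_image]; simp
  rw [hi] at h
  have hp := vol_pos (bal_body (n := n))
  nlinarith

/-- The support bound in one direction. -/
theorem dot_le_centroid (hn : n ≠ 0) {K : Set (Fin (n + 1) → ℝ)} (hK : Body K)
    (hV : volume.real K = volume.real (bal n))
    (h : volume.real (K + bal n) ≤ 2 ^ (n + 1) * volume.real K)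
    (b : OrthonormalBasis (Fin (n + 1)) ℝ (Contact.E n)) :
    ∀ y ∈ K, ∑ i, WithLp.ofLp (b 0) i * (y i - (∫ x in K, x i) / volume.real K) ≤ 1 := by
  intro y hy
  set L := rot b with hL
  have hdot : ∀ x, ∑ i, WithLp.ofLp (b 0) i * L x i = x 0 := fun x => by
    rw [← repr_coords b x 0, PiLp.inner_apply]
    refine Finset.sum_congr rfl fun i _ => ?_
    simp [hL, rot_apply, mul_comm]
  have hLmp : MeasurePreserving L volume volume := rot_measurePreserving b
  have hemb : MeasurableEmbedding L :=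
    L.toContinuousLinearEquiv.toHomeomorph.measurableEmbedding
  set X := L.symm '' K with hXdef
  have hpre : X = L ⁻¹' K := LinearEquiv.image_symm_eq_preimage L K
  have hXB : Body X := body_map hK L.symm
  have hvol : ∀ S : Set (Fin (n + 1) → ℝ), volume.real (L.symm '' S) = volume.real S := fun S => by
    rw [LinearEquiv.image_symm_eq_preimage, measureReal_def, measureReal_def,
      hLmp.measure_preimage_emb hemb]
  have hsum : X + bal n = L.symm '' (K + bal n) := by
    conv_lhs => rw [← rot_bal b]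
    exact (image_add L.symm).symm
  obtain ⟨m, hm, hint⟩ := slice_translate hn ⟨hXB.1, hXB.2.1, ⟨0, hXB.2.2⟩⟩ fat_bal
    (by rw [hvol, hV]) (by rw [hsum, hvol, hvol]; exact h) rng_bal
  rw [integral_bal_first, zero_add] at hint
  have hi : ∫ x in X, x 0 = ∑ i, WithLp.ofLp (b 0) i * ∫ z in K, z i := by
    rw [hpre, ← setIntegral_congr_fun (g := fun x => x 0)
      (f := fun x => ∑ i, WithLp.ofLp (b 0) i * L x i)
      (hemb.measurable hK.2.1.measurableSet) fun x _ => hdot x,
      hLmp.setIntegral_preimage_emb hemb (fun z => ∑ i, WithLp.ofLp (b 0) i * z i) K,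
      integral_finsetSum]
    · simp only [integral_const_mul]
    · intro i _
      exact (continuous_const.mul (continuous_apply i)).continuousOn.integrableOn_compact hK.2.1
  have hy' := hm _ (mem_image_of_mem L.symm hy)
  rw [← hdot (L.symm y), LinearEquiv.apply_symm_apply] at hy'
  have hm' : ∑ i, WithLp.ofLp (b 0) i * ((∫ x in K, x i) / volume.real K) = m := by
    simp only [← mul_div_assoc, ← Finset.sum_div]
    rw [← hi, hint, hV, mul_div_cancel_right₀ _ (vol_pos bal_body).ne']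
  simp only [mul_sub, Finset.sum_sub_distrib, hm']
  linarith

/-- A body with the volume of the unit ball which adds to it like a homothet is a translate of it. -/
theorem bal_of_bm_eq (hn : n ≠ 0) {K : Set (Fin (n + 1) → ℝ)} (hK : Body K)
    (hV : volume.real K = volume.real (bal n))
    (h : volume.real (K + bal n) ≤ 2 ^ (n + 1) * volume.real K) :
    ∃ c : Fin (n + 1) → ℝ, K = (fun x => x + c) '' bal n := by
  set g : Fin (n + 1) → ℝ := fun i => (∫ x in K, x i) / volume.real K with hg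
  refine ⟨g, ?_⟩
  have hsub : (fun x => x + -g) '' K ⊆ bal n := by
    rintro _ ⟨y, hy, rfl⟩
    rw [bal_eq, mem_preimage, mem_closedBall_zero_iff]
    set d : Contact.E n := WithLp.toLp 2 (y + -g) with hd
    rcases eq_or_ne d 0 with h0 | h0
    · simp [h0]
    have hn' : 0 < ‖d‖ := norm_pos_iff.2 h0
    obtain ⟨b, hb⟩ := exists_basis_first (u := ‖d‖⁻¹ • d) (by simp [norm_smul, hn'.ne'])
    have := dot_le_centroid hn hK hV h b y hy
    rw [hb] at this
    have e : ∑ i, WithLp.ofLp (‖d‖⁻¹ • d) i * (y i - g i) = ‖d‖ := by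
      have e2 : ‖d‖ ^ 2 = ∑ i, (y i - g i) ^ 2 := by
        rw [EuclideanSpace.norm_sq_eq]; simp [hd, sq_abs, sub_eq_add_neg]
      calc ∑ i, WithLp.ofLp (‖d‖⁻¹ • d) i * (y i - g i)
          = ∑ i, ‖d‖⁻¹ * (y i - g i) ^ 2 :=
            Finset.sum_congr rfl fun i _ => by simp [hd]; ring
        _ = ‖d‖ := by rw [← Finset.mul_sum, ← e2]; field_simp
    linarith
  have he := eq_of_subset_vol (hK.2.1.image (by fun_prop)) bal_body hsub (by
    rw [image_add_right, measureReal_def, measure_preimage_add_right, ← measureReal_def, hV])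
  rw [← he, image_image]
  simp

/-- The Euclidean length in coordinates. -/
def len (u : Fin (n + 1) → ℝ) : ℝ := Real.sqrt (u ⬝ᵥ u)

theorem dot_self_eq (u : Fin (n + 1) → ℝ) : u ⬝ᵥ u = ∑ i, u i ^ 2 := by simp [dotProduct, sq]

theorem dot_self_nonneg' (u : Fin (n + 1) → ℝ) : 0 ≤ u ⬝ᵥ u :=
  Finset.sum_nonneg fun i _ => mul_self_nonneg _

theorem len_sq (u : Fin (n + 1) → ℝ) : len u * len u = u ⬝ᵥ u :=
  Real.mul_self_sqrt (dot_self_nonneg' u)

theorem mem_bal {u : Fin (n + 1) → ℝ} : u ∈ bal n ↔ u ⬝ᵥ u ≤ 1 := by rw [dot_self_eq]; rfl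

theorem len_pos {u : Fin (n + 1) → ℝ} (hu : u ≠ 0) : 0 < len u :=
  Real.sqrt_pos.2 (lt_of_le_of_ne (dot_self_nonneg' u) (Ne.symm (mt dotProduct_self_eq_zero.1 hu)))

theorem kappa_closed (m : ℕ) :
    volume.real (closedBall (0 : EuclideanSpace ℝ (Fin m)) 1) = kappa m := by
  rcases Nat.eq_zero_or_pos m with rfl | hm
  · have hb : ∀ x : EuclideanSpace ℝ (Fin 0), x = 0 := fun x => Subsingleton.elim x 0
    rw [kappa]
    congr 1
    ext x
    rw [hb x]
    simp
  · have : Nonempty (Fin m) := ⟨⟨0, hm⟩⟩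
    rw [kappa, measureReal_def, measureReal_def, Measure.addHaar_closedBall_eq_addHaar_ball]

theorem vol_bal : volume.real (bal n) = kappa (n + 1) := by
  rw [bal_eq, measureReal_def, (PiLp.volume_preserving_toLp (Fin (n + 1))).measure_preimage
    measurableSet_closedBall.nullMeasurableSet, ← measureReal_def, kappa_closed]

theorem shadow_bal : shadow (bal n) =
    WithLp.toLp 2 ⁻¹' closedBall (0 : EuclideanSpace ℝ (Fin n)) 1 := by
  ext y
  rw [mem_preimage, mem_closedBall_zero_iff, ← sq_le_one_iff₀ (norm_nonneg _),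
    EuclideanSpace.norm_sq_eq]
  simp only [Real.norm_eq_abs, sq_abs]
  constructor
  · rintro ⟨x, hx, rfl⟩
    have hx' : ∑ i, x i ^ 2 ≤ 1 := hx
    rw [Fin.sum_univ_succ] at hx'
    simp only [Fin.tail]
    nlinarith [sq_nonneg (x 0)]
  · intro hy
    refine ⟨Fin.cons 0 y, ?_, Fin.tail_cons _ _⟩
    show ∑ i, (Fin.cons 0 y : Fin (n + 1) → ℝ) i ^ 2 ≤ 1
    rw [Fin.sum_univ_succ]
    simpa using hy

theorem pA_bal (u : Fin (n + 1) → ℝ) : pA (bal n) u = kappa n * len u := by
  rcases eq_or_ne u 0 with rfl | hu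
  · simp [Mx.pA_zero, len]
  have hl := len_pos hu
  set v : Contact.E n := WithLp.toLp 2 ((len u)⁻¹ • u) with hv
  have hv1 : ‖v‖ = 1 := by
    rw [← sq_eq_sq₀ (norm_nonneg _) zero_le_one, one_pow, EuclideanSpace.norm_sq_eq, hv]
    simp only [Real.norm_eq_abs, sq_abs, Pi.smul_apply, smul_eq_mul, mul_pow, ← Finset.mul_sum,
      ← dot_self_eq, ← len_sq]
    field_simp
  obtain ⟨b, hb⟩ := exists_basis_first hv1
  have hi : rot b '' bal n = bal n := by
    conv_lhs => rw [← rot_bal b]
    rw [image_image]; simp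
  have he : rot b e0 = (len u)⁻¹ • u := by
    have h : b.repr v = WithLp.toLp 2 (e0 : Fin (n + 1) → ℝ) := by
      rw [← hb, OrthonormalBasis.repr_self]
      ext i; simp [e0, Pi.single_apply]
    rw [rot_apply, coords, ← h, LinearIsometryEquiv.symm_apply_apply, hv]
  have h1 : pA (bal n) ((len u)⁻¹ • u) = kappa n := by
    have h := Mx.pA_image (rot b) (bal n) e0
    rw [rot_det, one_mul, hi, he] at h
    rw [h, pA_e0 bal_body.1 bal_body.2.1, shadow_bal, measureReal_def,
      (PiLp.volume_preserving_toLp (Fin n)).measure_preimage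
        measurableSet_closedBall.nullMeasurableSet, ← measureReal_def, kappa_closed]
  calc pA (bal n) u = pA (bal n) (len u • ((len u)⁻¹ • u)) := by rw [smul_inv_smul₀ hl.ne']
    _ = len u * kappa n := by rw [pA_smul bal_body hl.le, h1]
    _ = _ := by ring

theorem dot_le_len (u x : Fin (n + 1) → ℝ) (hx : x ∈ bal n) : u ⬝ᵥ x ≤ len u := by
  refine (le_abs_self _).trans (Real.abs_le_sqrt ?_)
  calc (u ⬝ᵥ x) ^ 2 ≤ (u ⬝ᵥ u) * (x ⬝ᵥ x) := by
        rw [dot_self_eq, dot_self_eq]
        exact Finset.sum_mul_sq_le_sq_mul_sq _ _ _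
    _ ≤ (u ⬝ᵥ u) * 1 := mul_le_mul_of_nonneg_left (mem_bal.1 hx) (dot_self_nonneg' u)
    _ = _ := mul_one _

theorem piBody_eq_bal {K : Set (Fin (n + 1) → ℝ)} {ρ : ℝ} (hρ : 0 < ρ)
    (h : ∀ u, pA K u = ρ * len u) : piBody K = ρ • bal n := by
  ext x
  rw [mem_smul_set_iff_inv_smul_mem₀ hρ.ne']
  constructor
  · intro hx
    have h1 := hx x
    rw [h, ← len_sq] at h1
    have h0 : 0 ≤ len x := Real.sqrt_nonneg _
    have h2 : len x ≤ ρ := by
      rcases h0.eq_or_lt with e | e
      · linarith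
      · exact le_of_mul_le_mul_right h1 e
    rw [mem_bal, dotProduct_smul, smul_dotProduct, ← len_sq, smul_eq_mul, smul_eq_mul,
      ← mul_assoc]
    calc ρ⁻¹ * ρ⁻¹ * (len x * len x) = (ρ⁻¹ * len x) ^ 2 := by ring
      _ ≤ 1 := by
        refine pow_le_one₀ (by positivity) ?_
        rw [inv_mul_le_iff₀ hρ, mul_one]; exact h2
  · intro hx u
    have h1 := dot_le_len u _ hx
    rw [dotProduct_smul, smul_eq_mul, inv_mul_le_iff₀ hρ] at h1
    exact h1.trans (h u).ge

end

end Vale.Agent.P237.Gen.Eq
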