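import Vale.Agent.P237.Gen.Reduce
import Vale.Agent.P237.Gen.Gauge
import Vale.Agent.P237.Gen.Euclid
import Vale.Agent.P237.Every.Body

/-!
The projection body in dimension `n + 1`: monotonicity, approximation, covariance.
-/

open MeasureTheory Set Pointwise Filter Topology

namespace Vale.Agent.P237.Gen.Eq

open Mx (det_pos_abs body_map volume_real_image)

noncomputable section

variable {n : ℕ}

theorem smul_body {K : Set (Fin (n + 1) → ℝ)} (hK : Body K) {c : ℝ} (hc : 0 < c) : Body (c • K) := by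
  refine ⟨hK.1.smul c, hK.2.1.smul c, ?_⟩
  rw [interior_smul₀ hc.ne']
  exact ⟨0, hK.2.2, smul_zero c⟩

theorem pA_neg (K : Set (Fin (n + 1) → ℝ)) (u : Fin (n + 1) → ℝ) : pA K (-u) = pA K u := by
  have : seg (-u) = seg u := by
    ext x
    constructor <;> rintro ⟨t, ht, rfl⟩ <;>
      exact ⟨-t, ⟨by linarith [ht.2], by linarith [ht.1]⟩, by simp⟩
  rw [pA, pA, this]

theorem piBody_neg_mem {K : Set (Fin (n + 1) → ℝ)} {x : Fin (n + 1) → ℝ} (hx : x ∈ piBody K) :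
    -x ∈ piBody K := fun u => by
  have := hx (-u)
  rw [pA_neg, neg_dotProduct] at this
  rwa [dotProduct_neg]

theorem piBody_body {K : Set (Fin (n + 1) → ℝ)} (hK : Body K) : Body (piBody K) := by
  refine ⟨?_, isCompact_piBody K, ?_⟩
  · intro x hx y hy a b ha hb hab u
    rw [dotProduct_add, dotProduct_smul, dotProduct_smul, smul_eq_mul, smul_eq_mul]
    have h1 := mul_le_mul_of_nonneg_left (hx u) ha
    have h2 := mul_le_mul_of_nonneg_left (hy u) hb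
    have e : pA K u = a * pA K u + b * pA K u := by rw [← add_mul, hab, one_mul]
    linarith
  · obtain ⟨c, hc, hlow⟩ := pA_lower hK
    refine mem_interior.2 ⟨Metric.ball 0 (c / ((n : ℝ) + 1)), fun x hx u => ?_, Metric.isOpen_ball,
      Metric.mem_ball_self (by positivity)⟩
    rw [mem_ball_zero_iff] at hx
    refine le_trans ?_ (hlow u)
    calc u ⬝ᵥ x ≤ ∑ _i : Fin (n + 1), ‖u‖ * (c / ((n : ℝ) + 1)) := Finset.sum_le_sum fun i _ =>
          (le_abs_self _).trans (by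
            rw [abs_mul]
            exact mul_le_mul (norm_le_pi_norm u i) ((norm_le_pi_norm x i).trans hx.le) (abs_nonneg _)
              (norm_nonneg _))
      _ = c * ‖u‖ := by simp; field_simp

/-- A zonotope approximation of a projection body. -/
structure Approx (K : Set (Fin (n + 1) → ℝ)) (θ : ℝ) {ι : Type} [Fintype ι]
    (s : ι → Fin (n + 1) → ℝ) : Prop where
  body : Body (zon s)
  lo : piBody K ⊆ θ • zon s
  hi : zon s ⊆ θ • piBody K
  supp_le : ∀ u, supp s u ≤ θ * pA K u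
  le_supp : ∀ u, pA K u ≤ θ * supp s u

theorem exists_approx {K : Set (Fin (n + 1) → ℝ)} (hK : Body K) {θ : ℝ} (hθ : 1 < θ) :
    ∃ (m : ℕ) (s : Fin m → Fin (n + 1) → ℝ), Approx K θ s := by
  obtain ⟨m, s, hs⟩ := exists_zonotope_approx hK (show 0 < θ - 1 by linarith)
  simp only [add_sub_cancel] at hs
  have h0 : 0 < θ := by linarith
  refine ⟨m, s, zon_body s (zon_pos_of_supp s fun u hu =>
    (pos_iff_pos_of_mul_pos (lt_of_lt_of_le (pA_pos hK hu) (hs u).2)).1 h0), ?_, ?_,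
    fun u => (hs u).1, fun u => (hs u).2⟩
  · intro x hx
    rw [mem_smul_set_iff_inv_smul_mem₀ h0.ne']
    refine subset_zon_of_dot_le s fun u => ?_
    rw [dotProduct_smul, smul_eq_mul, inv_mul_le_iff₀ h0]
    exact (hx u).trans (hs u).2
  · intro x hx
    rw [mem_smul_set_iff_inv_smul_mem₀ h0.ne']
    intro u
    rw [dotProduct_smul, smul_eq_mul, inv_mul_le_iff₀ h0]
    exact (dot_le_supp s u hx).trans (hs u).1

theorem Approx.vol_le {K : Set (Fin (n + 1) → ℝ)} {θ : ℝ} (hθ : 0 ≤ θ) {ι : Type} [Fintype ι]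
    {s : ι → Fin (n + 1) → ℝ} (h : Approx K θ s) :
    volume.real (zon s) ≤ θ ^ (n + 1) * volume.real (piBody K) :=
  (measureReal_mono h.hi ((isCompact_piBody K).smul θ).measure_lt_top.ne).trans_eq (vol_smul θ hθ _)

theorem Approx.pA_le {K : Set (Fin (n + 1) → ℝ)} (hK : Body K) {θ : ℝ} (hθ : 0 ≤ θ) {ι : Type}
    [Fintype ι] {s : ι → Fin (n + 1) → ℝ} (h : Approx K θ s) (u : Fin (n + 1) → ℝ) :
    supp (piGen s) u ≤ θ ^ n * pA (piBody K) u := by
  obtain ⟨hc, hk, -⟩ := piBody_body hK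
  rw [← pA_zon, ← Mx.pA_dilate hc hk hθ]
  exact Mx.pA_mono h.body.1 h.body.2.1 (hc.smul θ) (hk.smul θ) h.hi u

theorem le_of_forall_theta {a b : ℝ} (m : ℕ) (h : ∀ θ : ℝ, 1 < θ → a ≤ θ ^ m * b) : a ≤ b := by
  have hlim : Tendsto (fun θ : ℝ => θ ^ m * b) (𝓝[>] 1) (𝓝 b) := by
    have : Continuous fun θ : ℝ => θ ^ m * b := by fun_prop
    simpa using (this.tendsto 1).mono_left (nhdsWithin_le_nhds (s := Ioi (1:ℝ)))
  exact ge_of_tendsto hlim (eventually_nhdsWithin_of_forall fun θ hθ => h θ hθ)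

/-- The support function of the projection body is at least `pA`. -/
theorem pA_le_of_piBody {K : Set (Fin (n + 1) → ℝ)} (hK : Body K) {u : Fin (n + 1) → ℝ} {b : ℝ}
    (hb : ∀ x ∈ piBody K, u ⬝ᵥ x ≤ b) : pA K u ≤ b := by
  refine le_of_forall_theta 2 fun θ hθ => ?_
  obtain ⟨m, s, hs⟩ := exists_approx hK hθ
  obtain ⟨z, hz, he⟩ := exists_dot_eq_supp s u
  obtain ⟨x, hx, rfl⟩ := hs.hi hz
  have h1 := hb x hx
  rw [dotProduct_smul, smul_eq_mul] at he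
  have := hs.le_supp u
  rw [← he] at this
  calc pA K u ≤ θ * (θ * (u ⬝ᵥ x)) := this
    _ ≤ θ * (θ * b) := by
        have : 0 ≤ θ := by linarith
        gcongr
    _ = θ ^ 2 * b := by ring

theorem adj_injective (A : (Fin (n + 1) → ℝ) ≃ₗ[ℝ] (Fin (n + 1) → ℝ)) :
    Function.Injective (adj (A : (Fin (n + 1) → ℝ) →ₗ[ℝ] (Fin (n + 1) → ℝ))) :=
  Function.LeftInverse.injective (coadj_adj A)

/-- The transpose of a linear equivalence. -/
def adjE (A : (Fin (n + 1) → ℝ) ≃ₗ[ℝ] (Fin (n + 1) → ℝ)) :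
    (Fin (n + 1) → ℝ) ≃ₗ[ℝ] (Fin (n + 1) → ℝ) :=
  LinearEquiv.ofInjectiveEndo (adj (A : (Fin (n + 1) → ℝ) →ₗ[ℝ] (Fin (n + 1) → ℝ))) (adj_injective A)

theorem adjE_apply (A : (Fin (n + 1) → ℝ) ≃ₗ[ℝ] (Fin (n + 1) → ℝ)) (u : Fin (n + 1) → ℝ) :
    adjE A u = adj (A : (Fin (n + 1) → ℝ) →ₗ[ℝ] (Fin (n + 1) → ℝ)) u :=
  congrFun (LinearEquiv.coe_ofInjectiveEndo _ (adj_injective A)) u

theorem adjE_dot (A : (Fin (n + 1) → ℝ) ≃ₗ[ℝ] (Fin (n + 1) → ℝ)) (u x : Fin (n + 1) → ℝ) :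
    adjE A u ⬝ᵥ x = u ⬝ᵥ A x := by
  rw [adjE_apply, adj_dot]
  rfl

theorem adjE_det (A : (Fin (n + 1) → ℝ) ≃ₗ[ℝ] (Fin (n + 1) → ℝ)) :
    LinearMap.det (adjE A : (Fin (n + 1) → ℝ) →ₗ[ℝ] (Fin (n + 1) → ℝ)) =
      LinearMap.det (A : (Fin (n + 1) → ℝ) →ₗ[ℝ] (Fin (n + 1) → ℝ)) := by
  have : (adjE A : (Fin (n + 1) → ℝ) →ₗ[ℝ] (Fin (n + 1) → ℝ)) =
      adj (A : (Fin (n + 1) → ℝ) →ₗ[ℝ] (Fin (n + 1) → ℝ)) := LinearMap.ext (adjE_apply A)
  rw [this, det_adj]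

theorem abs_det_symm (A : (Fin (n + 1) → ℝ) ≃ₗ[ℝ] (Fin (n + 1) → ℝ)) :
    |LinearMap.det (A.symm : (Fin (n + 1) → ℝ) →ₗ[ℝ] (Fin (n + 1) → ℝ))| =
      |LinearMap.det (A : (Fin (n + 1) → ℝ) →ₗ[ℝ] (Fin (n + 1) → ℝ))|⁻¹ := by
  refine eq_inv_of_mul_eq_one_left ?_
  rw [← abs_mul, LinearEquiv.det_symm_mul_det, abs_one]

/-- Covariance of the projection body. -/
theorem piBody_map (T : (Fin (n + 1) → ℝ) ≃ₗ[ℝ] (Fin (n + 1) → ℝ)) (S : Set (Fin (n + 1) → ℝ)) :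
    piBody (T '' S) = (adjE T).symm ''
      (|LinearMap.det (T : (Fin (n + 1) → ℝ) →ₗ[ℝ] (Fin (n + 1) → ℝ))| • piBody S) := by
  have hd := det_pos_abs T
  ext x
  rw [LinearEquiv.image_symm_eq_preimage, mem_preimage, mem_smul_set_iff_inv_smul_mem₀ hd.ne']
  refine ⟨fun hx u => ?_, fun hx v => ?_⟩
  · rw [dotProduct_smul, smul_eq_mul, inv_mul_le_iff₀ hd, ← Mx.pA_image T S u, dotProduct_comm,
      adjE_dot, dotProduct_comm]
    exact hx (T u)
  · have h := hx (T.symm v)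
    rw [dotProduct_smul, smul_eq_mul, inv_mul_le_iff₀ hd, ← Mx.pA_image T S (T.symm v),
      dotProduct_comm, adjE_dot, LinearEquiv.apply_symm_apply, dotProduct_comm] at h
    exact h

theorem vol_piBody_map (T : (Fin (n + 1) → ℝ) ≃ₗ[ℝ] (Fin (n + 1) → ℝ)) (S : Set (Fin (n + 1) → ℝ)) :
    volume.real (piBody (T '' S)) =
      |LinearMap.det (T : (Fin (n + 1) → ℝ) →ₗ[ℝ] (Fin (n + 1) → ℝ))| ^ n *
        volume.real (piBody S) := by
  have hd := det_pos_abs T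
  rw [piBody_map, volume_real_image, abs_det_symm, adjE_det, vol_smul _ hd.le, pow_succ]
  field_simp

/-- The projection function of the projection body of an image. -/
theorem pA_piBody_map (T : (Fin (n + 1) → ℝ) ≃ₗ[ℝ] (Fin (n + 1) → ℝ)) {S : Set (Fin (n + 1) → ℝ)}
    (hS : Body S) (v : Fin (n + 1) → ℝ) :
    |LinearMap.det (T : (Fin (n + 1) → ℝ) →ₗ[ℝ] (Fin (n + 1) → ℝ))| * pA (piBody (T '' S)) v =
      |LinearMap.det (T : (Fin (n + 1) → ℝ) →ₗ[ℝ] (Fin (n + 1) → ℝ))| ^ n *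
        pA (piBody S) (adjE T v) := by
  have hd := det_pos_abs T
  have h := Mx.pA_image (adjE T).symm
    (|LinearMap.det (T : (Fin (n + 1) → ℝ) →ₗ[ℝ] (Fin (n + 1) → ℝ))| • piBody S) (adjE T v)
  rw [LinearEquiv.symm_apply_apply, ← piBody_map, abs_det_symm, adjE_det,
    Mx.pA_dilate (piBody_body hS).1 (piBody_body hS).2.1 hd.le] at h
  rw [h]
  field_simp

theorem piSet_eq_piBody (K : Set (Fin (n + 1) → ℝ)) : AllN.piSet K = piBody K := rfl

/-- Petty's inequality for the bodies of dimension `n + 1`, in the form used below. -/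
def Petty (n : ℕ) (C : ℝ) : Prop :=
  ∀ K : Set (Fin (n + 1) → ℝ), Body K → C * volume.real K ^ n ≤ volume.real (piBody K)

end

end Vale.Agent.P237.Gen.Eq
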