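import Vale.Agent.P237.Gen.Equality.Fixed
import Vale.Agent.P237.AllN.Body

/-!
Equality makes the projection body an ellipsoid, given a contact bound strict off the ball.
-/

open MeasureTheory Set Pointwise Filter Topology

namespace Vale.Agent.P237.Gen.Eq

open Mx (det_pos_abs body_map)

noncomputable section

variable {n : ℕ}

/-- The Euclidean unit ball in coordinates. -/
def bal (n : ℕ) : Set (Fin (n + 1) → ℝ) := {x | ∑ i, x i ^ 2 ≤ 1}

theorem bal_eq : bal n = WithLp.toLp 2 ⁻¹'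
    Metric.closedBall (0 : EuclideanSpace ℝ (Fin (n + 1))) 1 := by
  ext y
  rw [mem_preimage, mem_closedBall_zero_iff, ← sq_le_one_iff₀ (norm_nonneg _),
    EuclideanSpace.norm_sq_eq]
  simp [bal, sq_abs]

theorem bal_eq_image : bal n = WithLp.ofLp ''
    Metric.closedBall (0 : EuclideanSpace ℝ (Fin (n + 1))) 1 := by
  rw [bal_eq]
  ext y
  exact ⟨fun h => ⟨_, h, rfl⟩, fun ⟨z, hz, e⟩ => by rw [← e]; simpa using hz⟩

theorem bal_body : Body (bal n) := by
  rw [bal_eq_image]
  refine ⟨(convex_closedBall _ _).linear_image (WithLp.linearEquiv 2 ℝ (Fin (n + 1) → ℝ)).toLinearMap,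
    (isCompact_closedBall _ _).image (PiLp.continuous_ofLp 2 _), ?_⟩
  rw [show WithLp.ofLp '' Metric.closedBall (0 : EuclideanSpace ℝ (Fin (n + 1))) 1
      = (PiLp.homeomorph 2 fun _ : Fin (n + 1) => ℝ) '' Metric.closedBall 0 1 from rfl,
    ← Homeomorph.image_interior]
  exact ⟨0, Metric.ball_subset_interior_closedBall (Metric.mem_ball_self one_pos), rfl⟩

/-- A convex body has no closed proper subset of the same volume. -/
theorem eq_of_subset_vol {X Y : Set (Fin (n + 1) → ℝ)} (hX : IsCompact X) (hY : Body Y) (h : X ⊆ Y)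
    (hv : volume.real X = volume.real Y) : X = Y := by
  have hsd : volume (Y \ X) = 0 := by
    rw [measure_sdiff h hX.measurableSet.nullMeasurableSet hX.measure_lt_top.ne,
      (ENNReal.toReal_eq_toReal_iff' hX.measure_lt_top.ne hY.2.1.measure_lt_top.ne).1 hv, tsub_self]
  have hint : interior Y \ X = ∅ :=
    (isOpen_interior.sdiff hX.isClosed).eq_empty_of_measure_zero
      (measure_mono_null (sdiff_subset_sdiff_left interior_subset) hsd)
  refine h.antisymm fun y hy => ?_
  have hcl : y ∈ closure (interior Y) := by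
    rw [hY.1.closure_interior_eq_closure_of_nonempty_interior ⟨0, hY.2.2⟩]; exact subset_closure hy
  exact closure_minimal (sdiff_eq_empty.1 hint) hX.isClosed hcl

/-- In John position some contact direction has a slice functional above `k` unless the body is
the ball. -/
def ContactEq (n : ℕ) (k : ℝ) : Prop :=
  ∀ X : Set (Fin (n + 1) → ℝ), Body X → (∀ x ∈ X, -x ∈ X) →
    ∃ T : (Fin (n + 1) → ℝ) ≃ₗ[ℝ] (Fin (n + 1) → ℝ),
      bal n ⊆ T '' X ∧ (∀ x ∈ T '' X, x 0 ≤ 1) ∧
        ((∫ t, AllN.slA (T '' X) t ^ (((n : ℝ) - 1) / n)) ^ n ≤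
            k * volume.real (T '' X) ^ (n - 1) →
          volume.real (T '' X) = volume.real (bal n))

/-- A body all whose slice functionals are at most `k` is an ellipsoid. -/
def SliceEq (n : ℕ) (k : ℝ) : Prop :=
  ∀ X : Set (Fin (n + 1) → ℝ), Body X → (∀ x ∈ X, -x ∈ X) →
    (∀ (T : (Fin (n + 1) → ℝ) ≃ₗ[ℝ] (Fin (n + 1) → ℝ)) (h : ℝ), 0 < h →
      (∀ x ∈ T '' X, x 0 ≤ h) →
      (∫ t, AllN.slA (T '' X) t ^ (((n : ℝ) - 1) / n)) ^ n ≤
        k * volume.real (T '' X) ^ (n - 1) * h) →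
    ∃ T : (Fin (n + 1) → ℝ) ≃ₗ[ℝ] (Fin (n + 1) → ℝ), T '' X = bal n

theorem ContactEq.slice {k : ℝ} (hcon : ContactEq n k) : SliceEq n k := fun X hX hs hall => by
  obtain ⟨T, hin, hh, hG⟩ := hcon X hX hs
  refine ⟨T, (eq_of_subset_vol bal_body.2.1 (body_map hX T) hin (hG ?_).symm).symm⟩
  simpa using hall T 1 one_pos hh

/-- Equality makes the projection body an ellipsoid. -/
theorem eq_piBody_ellipsoid (hn : 2 ≤ n) {c k : ℝ} (hc : 0 < c) (hk : 0 < k)
    (hlow : ∀ S : Set (Fin n → ℝ), IsCompact S → Convex ℝ S →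
      c * volume.real S ^ (n - 1) ≤ volume.real (AllN.piSet S))
    (hP : Petty n (c * k)) (hcon : SliceEq n k) {K : Set (Fin (n + 1) → ℝ)} (hK : Body K)
    (heq : volume.real (piBody K) ≤ c * k * volume.real K ^ n) :
    ∃ T : (Fin (n + 1) → ℝ) ≃ₗ[ℝ] (Fin (n + 1) → ℝ), T '' piBody K = bal n := by
  have hn0 : n ≠ 0 := by omega
  set V := volume.real K with hV
  set P := piBody K with hPd
  set Q := piBody P with hQ
  set C := c * k with hC
  have hPB := piBody_body hK
  have Vp : 0 < V := vol_pos hK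
  have hC0 : 0 < C := mul_pos hc hk
  set L := C * V ^ (n - 1) with hL
  have hL0 : 0 < L := by positivity
  obtain ⟨hprop, -, -⟩ :=
    eq_fixed hn0 hP hK heq (div_pos one_pos hL0) (one_div_mul_cancel hL0.ne')
  have hVP : volume.real P = C * V ^ n := le_antisymm heq (hP K hK)
  refine hcon P hPB (fun x hx => piBody_neg_mem hx) fun T h h0 hh => ?_
  set d := |LinearMap.det (T : (Fin (n + 1) → ℝ) →ₗ[ℝ] (Fin (n + 1) → ℝ))| with hd
  have hd0 : 0 < d := det_pos_abs T
  have hTB : Body (T '' P) := body_map hPB T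
  have hsym : -(T '' P) = T '' P := by
    refine Subset.antisymm (fun x hx => ?_) fun x hx => ?_
    · obtain ⟨y, hy, e⟩ := mem_neg.1 hx
      exact ⟨-y, piBody_neg_mem hy, by rw [map_neg, e, neg_neg]⟩
    · obtain ⟨y, hy, e⟩ := hx
      exact mem_neg.2 ⟨-y, piBody_neg_mem hy, by rw [map_neg, e]⟩
  have hsl : c * (∫ t, AllN.slA (T '' P) t ^ (((n : ℝ) - 1) / n)) ^ n ≤ pA (piBody (T '' P)) e0 :=
    AllN.body_slice_le_pA_piSet hn hc.le hlow hTB hsym
  have hsupp : pA K (adjE T e0) ≤ h := pA_le_of_piBody hK fun x hx => by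
    rw [adjE_dot]
    simpa [e0, single_dotProduct] using hh (T x) (mem_image_of_mem T hx)
  have hQw : pA Q (adjE T e0) ≤ h * L ^ n := by
    have h1 := hprop (adjE T e0)
    rw [← hQ, div_pow, one_pow, one_div_mul_eq_div, div_eq_iff (by positivity)] at h1
    rw [h1]
    exact mul_le_mul_of_nonneg_right hsupp (by positivity)
  have hcov := pA_piBody_map T hPB e0
  rw [← hd, ← hQ] at hcov
  have hdn : d ^ n = d * d ^ (n - 1) := by rw [mul_comm, pow_sub_one_mul hn0]
  have hpA : pA (piBody (T '' P)) e0 ≤ d ^ (n - 1) * (h * L ^ n) := by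
    refine le_of_mul_le_mul_left ?_ hd0
    rw [hcov, ← mul_assoc, ← hdn]
    gcongr
  refine le_of_mul_le_mul_left ((hsl.trans hpA).trans (le_of_eq ?_)) hc
  rw [Mx.volume_real_image, ← hd, hVP, hL]
  calc d ^ (n - 1) * (h * (C * V ^ (n - 1)) ^ n)
      = h * (d ^ (n - 1) * (C * (C ^ (n - 1)) * (V ^ n) ^ (n - 1))) := by
        rw [mul_pow, ← pow_sub_one_mul hn0 C, ← pow_mul, ← pow_mul, mul_comm n (n - 1)]
        ring
    _ = c * (k * (d * (C * V ^ n)) ^ (n - 1) * h) := by
        rw [mul_pow, mul_pow, hC]; ring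

end

end Vale.Agent.P237.Gen.Eq
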