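import Vale.Agent.P237.Gen.Equality.Basic
import Vale.Agent.P237.Gen.Stab

/-!
Equality in Petty's inequality: the fixed point equation for the projection body.
-/

open MeasureTheory Set Pointwise Filter Topology

namespace Vale.Agent.P237.Gen.Eq

open Mx (rt rt_pos rt_pow)

noncomputable section

variable {n : ℕ}

/-- Equality forces `Π²K` to add to `K` like a homothet and to have proportional projections. -/
theorem eq_fixed (hn : n ≠ 0) {C : ℝ} (hP : Petty n C)
    {K : Set (Fin (n + 1) → ℝ)} (hK : Body K)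
    (heq : volume.real (piBody K) ≤ C * volume.real K ^ n)
    {l : ℝ} (hl : 0 < l) (hlV : l * (C * volume.real K ^ (n - 1)) = 1) :
    (∀ u, l ^ n * pA (piBody (piBody K)) u = pA K u) ∧
      volume.real (l • piBody (piBody K)) = volume.real K ∧
      volume.real (K + l • piBody (piBody K)) ≤ 2 ^ (n + 1) * volume.real K := by
  set V := volume.real K with hV
  set P := piBody K with hPd
  set Q := piBody P with hQ
  have hPB := piBody_body hK
  have hQB := piBody_body hPB
  have Vp : 0 < V := vol_pos hK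
  have hVP : volume.real P = C * V ^ n := le_antisymm heq (hP K hK)
  have hW : C * volume.real P ^ n ≤ volume.real Q := hP P hPB
  set a := rt (n + 1) V with ha
  have ha0 : 0 < a := rt_pos Vp
  have ha3 : a ^ (n + 1) = V := rt_pow n.succ_ne_zero Vp.le
  have hVV : C * V ^ n = C * V ^ (n - 1) * V := by rw [mul_assoc, pow_sub_one_mul hn]
  have hup : ∀ θ : ℝ, 1 < θ →
      volume.real (K + l • Q) ≤ (a + a * θ ^ (2 * n + 4)) ^ (n + 1) := by
    intro θ hθ
    have hθ0 : 0 ≤ θ := by linarith
    obtain ⟨m, s, hs⟩ := exists_approx hK hθ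
    set c := l * θ ^ n with hc
    have hc0 : 0 ≤ c := by positivity
    have hpA : ∀ u, pA P u ≤ θ ^ n * supp (piGen s) u := fun u => by
      rw [← pA_zon, ← Mx.pA_dilate hs.body.1 hs.body.2.1 hθ0]
      exact Mx.pA_mono hPB.1 hPB.2.1 (hs.body.1.smul θ) (hs.body.2.1.smul θ) hs.lo u
    have hsub : l • Q ⊆ zon (c • piGen s) := by
      rintro _ ⟨x, hx, rfl⟩
      rw [zon_smul']
      have : (θ ^ n)⁻¹ • x ∈ zon (piGen s) := subset_zon_of_dot_le _ fun u => by
        rw [dotProduct_smul, smul_eq_mul, inv_mul_le_iff₀ (by positivity)]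
        exact (hx u).trans (hpA u)
      refine ⟨_, this, ?_⟩
      simp only [hc, smul_smul]
      congr 1
      field_simp
    have hmix : mixed K (c • piGen s) ≤ c * (θ * (θ ^ (n + 1) * volume.real P)) := by
      have e : mixed K (c • piGen s) = c * mixed K (piGen s) := by
        simp only [mixed, Pi.smul_apply, pA_smul hK hc0, ← Finset.mul_sum]; ring
      rw [e]
      refine mul_le_mul_of_nonneg_left ?_ hc0
      calc mixed K (piGen s) ≤ 2 / ((n : ℝ) + 1) * ∑ i, θ * supp s (piGen s i) := by
            unfold mixed; gcongr with i; exact hs.le_supp _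
        _ = θ * volume.real (zon s) := by
            rw [← Finset.mul_sum, supp_symm (piGen s) s, vol_zon]; ring
        _ ≤ θ * (θ ^ (n + 1) * volume.real P) := mul_le_mul_of_nonneg_left (hs.vol_le hθ0) hθ0
    refine (measureReal_mono (add_subset_add_left hsub)
      (hK.2.1.add (zon_compact _)).measure_lt_top.ne).trans ?_
    refine (vol_add_le hK _ ha0.le ha3).trans
      (pow_le_pow_left₀ (add_nonneg ha0.le (div_nonneg (mixed_nonneg hK _) (by positivity))) ?_ _)
    have h6 : mixed K (c • piGen s) / a ^ n ≤ a * θ ^ (2 * n + 2) := by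
      rw [div_le_iff₀ (by positivity)]
      refine hmix.trans (le_of_eq ?_)
      rw [hc, hVP, hVV]
      calc l * θ ^ n * (θ * (θ ^ (n + 1) * (C * V ^ (n - 1) * V)))
          = l * (C * V ^ (n - 1)) * θ ^ (2 * n + 2) * V := by ring
        _ = θ ^ (2 * n + 2) * a ^ (n + 1) := by rw [hlV, one_mul, ha3]
        _ = _ := by ring
    have : a * θ ^ (2 * n + 2) ≤ a * θ ^ (2 * n + 4) :=
      mul_le_mul_of_nonneg_left (pow_le_pow_right₀ hθ.le (by omega)) ha0.le
    linarith
  have h2 : volume.real (K + l • Q) ≤ 2 ^ (n + 1) * V := by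
    have hlim : Tendsto (fun θ : ℝ => (a + a * θ ^ (2 * n + 4)) ^ (n + 1)) (𝓝[>] 1)
        (𝓝 (2 ^ (n + 1) * V)) := by
      have : Continuous fun θ : ℝ => (a + a * θ ^ (2 * n + 4)) ^ (n + 1) := by fun_prop
      have h := (this.tendsto 1).mono_left (nhdsWithin_le_nhds (s := Ioi (1:ℝ)))
      convert h using 2
      rw [one_pow, mul_one, ← ha3, ← mul_pow]
      ring
    exact ge_of_tendsto hlim (eventually_nhdsWithin_of_forall fun θ hθ => hup θ hθ)
  have hLB : Body (l • Q) := smul_body hQB hl
  have hLV : V ≤ volume.real (l • Q) := by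
    rw [vol_smul l hl.le]
    refine le_trans (le_of_eq ?_) (mul_le_mul_of_nonneg_left hW (by positivity))
    rw [hVP, hVV]
    calc V = (l * (C * V ^ (n - 1))) ^ (n + 1) * V := by rw [hlV]; ring
      _ = l ^ (n + 1) * ((C * V ^ (n - 1)) ^ n * C * (V ^ (n - 1) * V)) := by ring
      _ = l ^ (n + 1) * ((C * V ^ (n - 1)) ^ n * C * V ^ n) := by rw [pow_sub_one_mul hn]
      _ = _ := by ring
  have keyu : ∀ u : Fin (n + 1) → ℝ, u ≠ 0 →
      pA K u = pA (l • Q) u ∧ volume.real (l • Q) = V := by
    intro u hu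
    have A0 := pA_pos hK hu
    have B0 := pA_pos hLB hu
    have hb := (bonnesen hn hK hLB hu).trans h2
    have hrt : 0 ≤ rt n (pA K u) + rt n (pA (l • Q) u) := by
      have := rt_pos (n := n) A0; have := rt_pos (n := n) B0; linarith
    have hk := ratio_near hn (ε := 0) (t := 0) le_rfl (by norm_num) (by norm_num) A0 B0 (by
      refine le_of_mul_le_mul_left ?_ Vp
      calc V * ((rt n (pA K u) + rt n (pA (l • Q) u)) ^ n * (1 / pA K u + 1 / pA (l • Q) u))
          = (rt n (pA K u) + rt n (pA (l • Q) u)) ^ n * (V / pA K u + V / pA (l • Q) u) := by ring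
        _ ≤ (rt n (pA K u) + rt n (pA (l • Q) u)) ^ n *
            (V / pA K u + volume.real (l • Q) / pA (l • Q) u) := by gcongr
        _ ≤ 2 ^ (n + 1) * V := hb
        _ = _ := by norm_num; ring)
    simp only [sub_zero, add_zero, one_pow, one_mul] at hk
    have eAB : pA K u = pA (l • Q) u := le_antisymm hk.1 hk.2
    refine ⟨eAB, le_antisymm ?_ hLV⟩
    rw [← eAB] at hb
    rw [← two_mul, mul_pow, rt_pow hn A0.le] at hb
    have e : 2 ^ n * pA K u * (V / pA K u + volume.real (l • Q) / pA K u)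
        = 2 ^ n * (V + volume.real (l • Q)) := by field_simp
    rw [← hV, e, pow_succ, mul_assoc] at hb
    have := le_of_mul_le_mul_left hb (by positivity)
    linarith
  refine ⟨fun u => ?_, (keyu e0 (by simp [e0])).2, h2⟩
  rcases eq_or_ne u 0 with rfl | hu
  · simp [Mx.pA_zero]
  rw [(keyu u hu).1, Mx.pA_dilate hQB.1 hQB.2.1 hl.le]

end

end Vale.Agent.P237.Gen.Eq
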