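import Vale.Agent.P237.Gen.Equality.Ball

/-!
Equality in Petty's inequality characterises ellipsoids, given a contact bound strict off the ball.
-/

open MeasureTheory Set Pointwise Filter Topology

namespace Vale.Agent.P237.Gen.Eq

open Mx (body_map det_pos_abs volume_real_image)
open Every (kappa)

noncomputable section

variable {n : ℕ}

/-- Equality forces an ellipsoid. -/
theorem eq_case (hn : 2 ≤ n) {c k : ℝ} (hc : 0 < c) (hk : 0 < k)
    (hlow : ∀ S : Set (Fin n → ℝ), IsCompact S → Convex ℝ S →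
      c * volume.real S ^ (n - 1) ≤ volume.real (AllN.piSet S))
    (hP : Petty n (c * k)) (hcon : SliceEq n k) {K : Set (Fin (n + 1) → ℝ)} (hK : Body K)
    (heq : volume.real (piBody K) ≤ c * k * volume.real K ^ n) :
    ∃ (M : (Fin (n + 1) → ℝ) ≃ₗ[ℝ] (Fin (n + 1) → ℝ)) (v : Fin (n + 1) → ℝ),
      K = (fun x => M x + v) '' bal n := by
  have hn0 : n ≠ 0 := by omega
  set C := c * k with hC
  have hC0 : 0 < C := mul_pos hc hk
  obtain ⟨T, hT⟩ := eq_piBody_ellipsoid hn hc hk hlow hP hcon hK heq
  have hTP : piBody K = T.symm '' bal n := by rw [← hT, image_image]; simp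
  set N := adjE T.symm with hN
  set d := |LinearMap.det (N : (Fin (n + 1) → ℝ) →ₗ[ℝ] (Fin (n + 1) → ℝ))| with hd
  have hd0 : 0 < d := det_pos_abs N
  have hpA : ∀ u, pA K u = len (N u) := by
    intro u
    refine le_antisymm (pA_le_of_piBody hK fun x hx => ?_) ?_
    · rw [hTP] at hx
      obtain ⟨y, hy, rfl⟩ := hx
      rw [← adjE_dot]
      exact dot_le_len _ _ hy
    · rcases eq_or_ne (N u) 0 with h | h
      · rw [h]; simpa [len] using pA_nonneg hK u
      have hl := len_pos h
      have hy : (len (N u))⁻¹ • N u ∈ bal n := by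
        rw [mem_bal, dotProduct_smul, smul_dotProduct, ← len_sq, smul_eq_mul, smul_eq_mul]
        exact le_of_eq (by field_simp)
      have h1 : u ⬝ᵥ T.symm ((len (N u))⁻¹ • N u) ≤ pA K u :=
        (show T.symm ((len (N u))⁻¹ • N u) ∈ piBody K by
          rw [hTP]; exact mem_image_of_mem _ hy) u
      rw [← adjE_dot, ← hN, dotProduct_smul, ← len_sq, smul_eq_mul] at h1
      refine le_trans (le_of_eq ?_) h1
      field_simp
  set K' := N '' K with hK'
  have hKB := body_map hK N
  have hpA' : ∀ v, pA K' v = d * len v := fun v => by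
    have h := Mx.pA_image N K (N.symm v)
    rw [LinearEquiv.apply_symm_apply] at h
    rw [hK', h, hpA, LinearEquiv.apply_symm_apply]
  have hP' : piBody K' = d • bal n := piBody_eq_bal hd0 hpA'
  set V := volume.real K with hV
  have Vp : 0 < V := vol_pos hK
  have hV' : volume.real K' = d * V := volume_real_image N K
  have heq' : volume.real (piBody K') ≤ C * volume.real K' ^ n := by
    rw [hV', mul_pow, hK', vol_piBody_map, ← hd]
    calc d ^ n * volume.real (piBody K) ≤ d ^ n * (C * V ^ n) :=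
          mul_le_mul_of_nonneg_left heq (by positivity)
      _ = _ := by ring
  have hVp' : 0 < volume.real K' := by rw [hV']; positivity
  have hL' : 0 < C * volume.real K' ^ (n - 1) := by positivity
  set l := 1 / (C * volume.real K' ^ (n - 1)) with hl
  have hl0 : 0 < l := div_pos one_pos hL'
  obtain ⟨-, hLV, hL2⟩ := eq_fixed hn0 hP hKB heq' hl0 (one_div_mul_cancel hL'.ne')
  have hkap : 0 < kappa n := kappa_pos n
  have hQ' : piBody (piBody K') = (d ^ n * kappa n) • bal n := by
    rw [hP']
    refine piBody_eq_bal (by positivity) fun u => ?_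
    rw [Mx.pA_dilate bal_body.1 bal_body.2.1 hd0.le, pA_bal]
    ring
  rw [hQ', smul_smul] at hLV hL2
  set σ := l * (d ^ n * kappa n) with hσ
  have hσ0 : 0 < σ := by positivity
  have hvS : volume.real (σ⁻¹ • K') = volume.real (bal n) := by
    rw [vol_smul _ (by positivity), ← hLV, vol_smul _ hσ0.le, ← mul_assoc, ← mul_pow,
      inv_mul_cancel₀ hσ0.ne', one_pow, one_mul]
  have hsum : volume.real (σ⁻¹ • K' + bal n) ≤ 2 ^ (n + 1) * volume.real (σ⁻¹ • K') := by
    have e : σ⁻¹ • K' + bal n = σ⁻¹ • (K' + σ • bal n) := by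
      rw [smul_add, smul_smul, inv_mul_cancel₀ hσ0.ne', one_smul]
    rw [e, vol_smul _ (by positivity), vol_smul _ (by positivity)]
    calc σ⁻¹ ^ (n + 1) * volume.real (K' + σ • bal n)
        ≤ σ⁻¹ ^ (n + 1) * (2 ^ (n + 1) * volume.real K') := by gcongr
      _ = _ := by ring
  obtain ⟨v, hv⟩ := bal_of_bm_eq hn0 (smul_body hKB (inv_pos.2 hσ0)) hvS hsum
  refine ⟨(LinearEquiv.smulOfNeZero ℝ _ σ hσ0.ne').trans N.symm, N.symm (σ • v), ?_⟩
  have h1 : K' = (fun x => σ • x + σ • v) '' bal n := by
    rw [← smul_inv_smul₀ hσ0.ne' K', hv, ← image_smul, image_image]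
    simp only [smul_add]
  have h2 : K = N.symm '' K' := by rw [hK', image_image]; simp
  conv_lhs => rw [h2, h1]
  rw [image_image]
  simp

/-- Ellipsoids attain equality. -/
theorem ellipsoid_attains (hn : n ≠ 0) (M : (Fin (n + 1) → ℝ) ≃ₗ[ℝ] (Fin (n + 1) → ℝ)) :
    volume.real (piBody (M '' bal n)) = pcN (n + 1) * volume.real (M '' bal n) ^ n := by
  have hκ := kappa_pos n
  have hκ' := kappa_pos (n + 1)
  have hb : piBody (bal n) = kappa n • bal n := piBody_eq_bal hκ pA_bal
  rw [vol_piBody_map, volume_real_image, hb, vol_smul _ hκ.le, vol_bal, pcN,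
    show n + 1 - 1 = n from rfl, show n + 1 - 2 = n - 1 from rfl, mul_pow,
    ← pow_sub_one_mul hn (kappa (n + 1))]
  field_simp

end

end Vale.Agent.P237.Gen.Eq
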